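import Vale.Agent.P011UC.Defs2
import Vale.Agent.P011UJ.Eta
import Mathlib.Algebra.Polynomial.Derivation
import Mathlib.LinearAlgebra.Matrix.IsDiag

/-!
Generic functionals are conjugate to regular functionals of weight zero.
-/

set_option autoImplicit false
set_option linter.all false

namespace Vale.Agent.P011UC

open Matrix Finset MvPolynomial Vale.Agent.P183CH Vale.Agent.P183CH.Chev Vale.Agent.P011U

attribute [local instance 100] LieRing.ofAssociativeRing

theorem der_of {K ι : Type} [Field K] [Infinite K] [Fintype ι] [DecidableEq ι]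
    (p : MvPolynomial ι K) (x : ι → K) (j : ι) {N : ℕ} (v : ℕ → K) (hN : 1 < N)
    (h : ∀ t : K, eval (x + t • Pi.single j 1) p = ∑ m ∈ range N, t ^ m * v m) :
    eval x (pderiv j p) = v 1 := by
  obtain ⟨y, hy⟩ : ∃ y : ι → Polynomial K, y = fun i =>
    Polynomial.C (x i) + Polynomial.X * Polynomial.C ((Pi.single j 1 : ι → K) i) := ⟨_, rfl⟩
  have e : ∀ (t : K) q, (aeval y q).eval t = eval (x + t • Pi.single j 1) q := fun t q => by
    induction q using MvPolynomial.induction_on with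
    | C a => simp
    | add p q hp hq => simp [hp, hq]
    | mul_X p i hp => rw [map_mul, Polynomial.eval_mul, hp]; simp [hy, mul_comm t]
  have r : aeval y p = ∑ m ∈ range N, Polynomial.monomial m (v m) := Polynomial.funext fun t => by
    rw [e, h]; simp [Polynomial.eval_finset_sum, mul_comm]
  have d := congrArg (Polynomial.eval 0) (P011UJ.der_aeval Polynomial.derivative' y p)
  rw [r, ← Polynomial.coeff_zero_eq_eval_zero, Polynomial.eval_finset_sum] at d
  simp only [smul_eq_mul, Polynomial.eval_mul, e] at d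
  simpa [hy, Polynomial.coeff_derivative, Polynomial.coeff_monomial, hN, Pi.single_apply,
    apply_ite Polynomial.derivative, apply_ite (Polynomial.eval (0 : K))] using d.symm

variable {D : Chev} {γ δ : D.Q} {z : Fin D.r → Fin D.n → ℤ}

section
variable {A B : Type} [CommRing A] [CommRing B]

variable (z) in
/-- the functionals of weight zero -/
def phi (y : Fin D.r → A) : D.Mat A →ₗ[A] A where
  toFun M := ∑ i, y i * ∑ a, (z i a : A) * M a a
  map_add' M N := by simp [mul_add, sum_add_distrib]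
  map_smul' c M := by simp [mul_sum, mul_left_comm]

theorem phi_ap (y : Fin D.r → A) (M : D.Mat A) :
    phi z y M = ∑ i, y i * ∑ a, (z i a : A) * M a a := rfl

theorem phi_map (ε : A →+* B) (y : Fin D.r → A) (M : D.Mat A) :
    ε (phi z y M) = phi z (fun i => ε (y i)) (M.map ε) := by simp [phi_ap]

theorem phi_add (y y' : Fin D.r → A) (t : A) (M : D.Mat A) :
    phi z (y + t • y') M = phi z y M + t * phi z y' M := by
  simp [phi_ap, add_mul, sum_add_distrib, mul_sum, mul_assoc]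

theorem phi_dg {M : D.Mat A} (h : M ∈ D.Dg A γ) (h0 : γ ≠ 0) (y : Fin D.r → A) :
    phi z y M = 0 := by
  have : ∀ a, M a a = 0 := fun a => by
    by_contra e
    exact h0 (pr_inj ((left_eq_add.1 (h a a e)).trans (zero_vecMul _).symm))
  simp [phi_ap, this]

theorem phi_hm (hz : ∀ i j, ∑ a, z i a * D.μ j a = if i = j then 1 else 0) (y : Fin D.r → A)
    (j : Fin D.r) : phi z y (ct A (D.hm j)) = y j := by
  have : ∀ i, ∑ a, (z i a : A) * (D.μ j a : A) = if i = j then 1 else 0 := fun i => by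
    simpa using congrArg (Int.cast : ℤ → A) (hz i j)
  simp [phi_ap, hm, this]

theorem ad_map {n : ℕ} (ε : A →+* B) (g : GL (Fin n) A) (M : Matrix (Fin n) (Fin n) A) :
    (Ad g M).map ε = Ad (gm ε g) (M.map ε) := by
  rw [Ad_apply, Matrix.map_mul, Matrix.map_mul]
  rfl

end

theorem ex_z (h : SC D) : ∃ z : Fin D.r → Fin D.n → ℤ,
    ∀ i j, ∑ a, z i a * D.μ j a = if i = j then 1 else 0 := by
  choose z hz using fun j : Fin D.r => (Submodule.mem_span_range_iff_exists_fun ℤ).1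
    (show (Pi.single j 1 : Fin D.r → ℤ) ∈ _ from h ▸ Submodule.mem_top)
  exact ⟨z, fun i j => by simpa [Pi.single_apply, eq_comm] using congrFun (hz i) j⟩

variable {K : Type} [Field K] {J : Set (Fin D.R.r)}

theorem ee_wt (h : γ ∈ D.R.Φ) : ee D K γ ∈ D.Dg K γ := Dg.ct (mem_Φ.1 h).rh.dg

/-- the coroots do not vanish -/
theorem phi_co [Infinite K] (hz : ∀ i j, ∑ a, z i a * D.μ j a = if i = j then 1 else 0)
    (h : γ ∈ D.R.Φ) : ∃ y, phi z y ⁅ee D K γ, ee D K (-γ)⁆ ≠ 0 := by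
  have o : (GG D K).Ok := GG_ok
  have R := R_ok D
  obtain ⟨w, hw, i, rfl⟩ := R.exists_conj h
  obtain ⟨g, -, r⟩ := RG.exists_rep' (Γ := GG D K) hw
  obtain ⟨c, hc⟩ := o.rep_conj R r (R.simple i)
  have e : Ad g.1 (ct K (D.hm i)) = ⁅ee D K (w (D.R.α i)), ee D K (-w (D.R.α i))⁆ := by
    have e1 := ad_ee (R.simple i) h fun t => (hc t).1
    have e2 := ad_ee (R.neg_mem (R.simple i)) (R.neg_mem h) fun t => (hc t).2
    rw [← ef, ← EE_e, ← EE_f, ct_lie, Ring.lie_def, map_sub, Ad_mul', Ad_mul']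
    erw [e1, e2]
    simp [Ring.lie_def, smul_smul]
  have m := lie_ok D K Set.univ o g (o.GJ_univ R ▸ Subgroup.mem_top g) _ (lie_h i)
  have k : D.cp 0 (Ad g.1 (ct K (D.hm i))) = (∑ j, (phi z (Pi.single j 1)).smulRight
      (ct K (D.hm j))) (Ad g.1 (ct K (D.hm i))) := by
    refine LinearMap.eqOn_span ?_ m
    rintro _ (⟨δ, hδ, -, rfl⟩ | ⟨j, rfl⟩)
    · simp only [LinearMap.sum_apply, LinearMap.smulRight_apply, cp_ne (ee_wt hδ) (mem_Φ.1 hδ).1,
        phi_dg (ee_wt hδ) (mem_Φ.1 hδ).1, zero_smul, sum_const_zero]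
    · simp only [LinearMap.sum_apply, LinearMap.smulRight_apply, cp_self (Dg.ct (dg_h j)), phi_hm hz]
      simp [Pi.single_apply]
  by_contra! n
  rw [e, cp_self (add_neg_cancel (w (D.R.α i)) ▸ Dg.lie (ee_wt h) (ee_wt (R.neg_mem h)))] at k
  simp only [LinearMap.sum_apply, LinearMap.smulRight_apply, n, zero_smul, sum_const_zero] at k
  have := phi_hm (A := K) hz (Pi.single i 1) i
  rw [← Ad_inv g.1⁻¹ (ct K (D.hm i)), inv_inv, e, k] at this
  simp at this

theorem gen : GEN := fun D hD K _ _ J f hf => by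
  classical
  haveI := P011UJ.inf_of_sep K
  have o : (GG D K).Ok := GG_ok
  have R := R_ok D
  obtain ⟨z, hz⟩ := ex_z hD
  obtain ⟨σ, _, ρ, inj, hρ, sur⟩ : ∃ (σ : Type) (_ : Fintype σ) (ρ : σ → D.Q), ρ.Injective ∧
      (∀ s, ρ s ∈ D.R.Φ ∧ D.R.In J (ρ s)) ∧ ∀ γ ∈ D.R.Φ, D.R.In J γ → ∃ s, ρ s = γ :=
    ⟨D.R.Φ.filter (D.R.In J), inferInstance, (↑), Subtype.val_injective,
      fun s => mem_filter.1 s.2, fun γ h k => ⟨⟨γ, mem_filter.2 ⟨h, k⟩⟩, rfl⟩⟩
  have rt : ∀ s, D.IsRt (ρ s) := fun s => mem_Φ.1 (hρ s).1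
  obtain ⟨u, hu⟩ : ∃ u : (σ ⊕ Fin D.r → K) → D.grp K, ∀ x, u x =
    (univ.toList.map fun s => (GG D K).x (ρ s) (x (.inl s))).prod := ⟨_, fun _ => rfl⟩
  have u0 : ∀ x, u x ∈ (GG D K).GJ J := fun x => hu x ▸ list_prod_mem fun g hg => by
    obtain ⟨s, -, rfl⟩ := List.mem_map.1 hg
    exact Subgroup.mem_sup_left (RG.x_mem (hρ s).1 (hρ s).2 _)
  have u1 : ∀ x, (∀ s, x (.inl s) = 0) → u x = 1 := fun x h => hu x ▸ List.prod_eq_one fun g hg => by
    obtain ⟨s, -, rfl⟩ := List.mem_map.1 hg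
    rw [h, o.x_zero (hρ s).1]
  have u2 : ∀ x s, (∀ s', s' ≠ s → x (.inl s') = 0) → u x = (GG D K).x (ρ s) (x (.inl s)) :=
    fun x s h => by
      rw [hu, List.prod_map_eq_pow_single s _ fun s' k _ => by rw [h s' k, o.x_zero (hρ s').1],
        List.count_eq_one_of_mem (nodup_toList _) (mem_toList.2 (mem_univ s)), pow_one]
  obtain ⟨U, hU⟩ : ∃ U : GL (Fin D.n) (MvPolynomial (σ ⊕ Fin D.r) K),
      ∀ x, gm (eval x) U = (u x).1 :=
    ⟨(univ.toList.map fun s => (rt s).rh.dp.exU (X (.inl s))).prod, fun x => by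
      rw [hu, map_list_prod, SubmonoidClass.coe_list_prod, List.map_map, List.map_map]
      exact congrArg List.prod (List.map_congr_left fun s _ => Units.ext ((map_ex _ _ _).trans
        (by rw [eval_X]; exact (congrArg Units.val (GG_x (rt s) _)).symm)))⟩
  obtain ⟨b, b1, b2⟩ : ∃ b : σ ⊕ Fin D.r → D.Mat ℤ, (∀ s, b (.inl s) = D.EE (-ρ s) 1) ∧
    ∀ i, b (.inr i) = D.hm i := ⟨Sum.elim _ _, fun _ => rfl, fun _ => rfl⟩
  obtain ⟨Φ, hΦ⟩ : ∃ Φ : σ ⊕ Fin D.r → MvPolynomial (σ ⊕ Fin D.r) K, ∀ x i,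
      eval x (Φ i) = phi z (fun j => x (.inr j)) (Ad (u x).1 (ct K (b i))) :=
    ⟨fun i => phi z (fun j => X (.inr j)) (Ad U (ct _ (b i))), fun x i => by
      simp only [phi_map, ad_map, hU, map_ct, eval_X]⟩
  obtain ⟨g, hg⟩ : ∃ g : σ → MvPolynomial (σ ⊕ Fin D.r) K, ∀ x s,
      eval x (g s) = phi z (fun j => x (.inr j)) ⁅ee D K (ρ s), ee D K (-ρ s)⁆ :=
    ⟨fun s => phi z (fun j => X (.inr j)) (ct _ ⁅D.EE (ρ s) 1, D.EE (-ρ s) 1⁆), fun x s => by
      rw [phi_map, map_ct, ct_lie]; simp only [eval_X]⟩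
  obtain ⟨f', hf'⟩ : ∃ f' : MvPolynomial (σ ⊕ Fin D.r) K, ∀ x, eval x f' = ev (u x) f :=
    ⟨eval₂ C (fun e => U.1 e.1 e.2) f, fun x => by
      rw [eval₂_comp_left, ev, ← hU, ← eval₂_id]
      exact congrArg (fun k => eval₂ k _ f) (RingHom.ext fun a => eval_C a)⟩
  have g0 : ∏ s, g s ≠ 0 := prod_ne_zero_iff.2 fun s _ e => by
    obtain ⟨y, hy⟩ := phi_co (K := K) hz (hρ s).1
    exact hy ((hg (Sum.elim 0 y) s).symm.trans (by rw [e, map_zero]))
  have f0 : f' ≠ 0 := fun e => by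
    obtain ⟨v, rfl | ⟨γ, h, k, t, rfl⟩, hv⟩ := hf
    · exact hv (by rw [← u1 0 fun _ => rfl, ← hf', e, map_zero])
    · obtain ⟨s, rfl⟩ := sur γ h k
      have := u2 (Pi.single (.inl s) t) s fun s' k => Pi.single_eq_of_ne (by simpa using k) _
      rw [Pi.single_eq_same] at this
      exact hv (by rw [← this, ← hf', e, map_zero])
  obtain ⟨y, hy⟩ : ∃ y : Fin D.r → K, ∀ s, phi z y ⁅ee D K (ρ s), ee D K (-ρ s)⁆ ≠ 0 := by
    by_contra! n
    refine g0 (MvPolynomial.funext fun x => ?_)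
    obtain ⟨s, hs⟩ := n fun j => x (.inr j)
    rw [map_prod, map_zero]
    exact prod_eq_zero (mem_univ s) ((hg x s).trans hs)
  obtain ⟨θ, θ1, θ2⟩ : ∃ θ : σ ⊕ Fin D.r → Module.Dual K (D.Mat K),
      (∀ s M, θ (.inl s) M = phi z y ⁅ee D K (ρ s), M⁆) ∧
      ∀ j, θ (.inr j) = phi z (Pi.single j 1) :=
    ⟨Sum.elim (fun s => phi z y ∘ₗ LieAlgebra.ad K _ (ee D K (ρ s))) _, fun _ _ => rfl, fun _ => rfl⟩
  have t0 : Pairwise fun j i => θ j (ct K (b i)) = 0 := by
    rintro (s | j) (s' | i) k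
    · rw [θ1, b1]
      exact phi_dg (Dg.lie (ee_wt (hρ s).1) (ee_wt (R.neg_mem (hρ s').1)))
        (fun e => k (congrArg _ (inj (add_neg_eq_zero.1 e)))) y
    · rw [θ1, b2]
      exact phi_dg (Dg.lie (ee_wt (hρ s).1) (Dg.ct (dg_h i))) ((add_zero _).trans_ne (rt s).1) y
    · rw [θ2, b1]
      exact phi_dg (ee_wt (R.neg_mem (hρ s').1)) (rt s').neg.1 _
    · rw [θ2, b2, phi_hm hz]
      exact Pi.single_eq_of_ne (fun e => k (congrArg _ e.symm)) _
  have t1 : ∀ i, θ i (ct K (b i)) ≠ 0 := by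
    rintro (s | j)
    · rw [θ1, b1]
      exact hy s
    · rw [θ2, b2, phi_hm hz, Pi.single_eq_same]
      exact one_ne_zero
  have dv : ∀ i j, eval (Sum.elim 0 y) (pderiv j (Φ i)) = θ j (ct K (b i)) := by
    rintro i (s | j)
    · obtain ⟨a, -⟩ := exists_e (D := D) ⟨0, R.pos⟩
      rw [der_of _ _ _ (N := D.n + D.n) (fun m => phi z y (ct K (adp (D.EE (ρ s)) (b i) m)))
        (by have := a.pos; omega) fun t => ?_, θ1, adp_one (rt s).rh.dp, ct_lie]
      rw [hΦ, u2 _ s fun s' k => by simp [k], GG_x (rt s), ad_exU, map_sum]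
      simp
    · rw [der_of _ _ _ (N := 2) (fun m => phi z (if m = 0 then y else Pi.single j 1) (ct K (b i)))
        one_lt_two fun t => ?_, θ2, if_neg one_ne_zero]
      rw [hΦ, u1 _ fun s => by simp]
      have := phi_add (z := z) y (Pi.single j 1) t (ct K (b i))
      simpa [sum_range_succ, Ad_apply, Pi.single_apply, Pi.add_def, Pi.smul_def] using this
  obtain ⟨q, q0, hq⟩ := P011UJ.eta K _ Φ (f' * ∏ s, g s) (mul_ne_zero f0 g0) fun e => by
    have d : Matrix.IsDiag (of fun i j => θ j (ct K (b i))) := fun i j k => t0 k.symm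
    have := congrArg (eval (Sum.elim 0 y)) e
    rw [RingHom.map_det, map_zero, show RingHom.mapMatrix _ _ = of fun i j => θ j (ct K (b i)) from
      Matrix.ext dv, ← d.diagonal_diag, det_diagonal] at this
    exact prod_ne_zero_iff.2 (fun i _ => t1 i) this
  refine ⟨σ ⊕ Fin D.r, inferInstance, fun i => ct K (b i), q,
    .of_pairwise_dual_eq_zero_one _ (fun i => (θ i (ct K (b i)))⁻¹ • θ i)
      (fun i j k => (congrArg (_ * ·) (t0 k)).trans (mul_zero _)) fun i => inv_mul_cancel₀ (t1 i),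
    ?_, q0, fun x hx => ?_⟩
  · rintro (s | i)
    · exact (congrArg (ct K · ∈ lie D K J) (b1 s)).mpr (lie_e (rt s).neg (hρ s).2.neg)
    · exact (congrArg (ct K · ∈ lie D K J) (b2 i)).mpr (lie_h i)
  obtain ⟨p, p1, p2⟩ := hq _ hx
  rw [map_mul, map_prod, mul_ne_zero_iff, prod_ne_zero_iff, hf'] at p2
  refine ⟨u p, u0 p, phi z fun j => p (.inr j), p2.1, ⟨fun γ h _ => phi_dg (ee_wt h)
    (mem_Φ.1 h).1 _, fun γ h k => ?_⟩, fun M m => LinearMap.eqOn_span
      (g := (phi z fun j => p (.inr j)) ∘ₗ Ad (u p).1) ?_ m⟩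
  · obtain ⟨s, rfl⟩ := sur γ h k
    exact hg p s ▸ p2.2 s (mem_univ s)
  rintro _ (⟨γ, h, k, rfl⟩ | ⟨i, rfl⟩)
  · obtain ⟨s, e⟩ := sur _ (R.neg_mem h) k.neg
    have : x (ct K (b (.inl s))) = _ := (p1 (.inl s)).symm.trans (hΦ p _)
    rwa [b1, e, neg_neg] at this
  · exact b2 i ▸ (p1 (.inr i)).symm.trans (hΦ p _)

end Vale.Agent.P011UC
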