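import Vale.Agent.P011UC.Defs2

/-!
The transporter of regular functionals.
-/

set_option autoImplicit false
set_option linter.all false

namespace Vale.Agent.P011UC

open Matrix Finset Vale.Agent.P183CH Vale.Agent.P183CH.Chev Vale.Agent.P011U

attribute [local instance 100] LieRing.ofAssociativeRing

variable {D : Chev} {K : Type} [Field K] {J : Set (Fin D.R.r)} {γ δ : D.Q}
  {ψ : Module.Dual K (D.Mat K)} {M : D.Mat K} {i j : ℤ} {u v : D.grp K}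

theorem ee_dg (h : γ ∈ D.R.Φ) : ee D K γ ∈ D.Dg K γ := Dg.ct (mem_Φ.1 h).rh.dg

theorem zer_cp (h : Zer J ψ) (hM : M ∈ lie D K J) : ψ M = ψ (D.cp 0 M) := by
  refine LinearMap.eqOn_span' (f := ψ) (g := ψ ∘ₗ D.cp 0) ?_ hM
  rintro _ (⟨γ, hγ, j, rfl⟩ | ⟨i, rfl⟩)
  · exact (h γ hγ j).trans (by
      rw [LinearMap.comp_apply, cp_ne (ee_dg hγ) (mem_Φ.1 hγ).1, map_zero])
  · exact (congrArg ψ (cp_self (Dg.ct (dg_h i)))).symm

theorem zer_fl (h : Zer J ψ) (hM : M ∈ lie D K J) (h1 : M ∈ D.Fl K 1) : ψ M = 0 := by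
  rw [zer_cp h hM, cp_fl h1 (by simp [hd]), map_zero]

theorem one_fl : (1 : D.Mat K) ∈ D.Fl K 0 := Sp.one fun a => by simp

theorem fl_mul {a b : D.Mat K} (hj : 0 ≤ j) (h : a - 1 ∈ D.Fl K j) (h' : b - 1 ∈ D.Fl K j) :
    a * b - 1 ∈ D.Fl K j := by
  rw [show a * b - 1 = (a - 1) * (b - 1) + (a - 1) + (b - 1) by noncomm_ring]
  exact add_mem (add_mem (Chev.Fl.mono (Chev.Fl.mul h h') (by omega)) h) h'

/-- the congruence subgroups of the filtration by the height -/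
def uj (D : Chev) (K : Type) [Field K] (j : ℕ) : Subgroup (D.grp K) where
  carrier := {g | g.1.1 - 1 ∈ D.Fl K j ∧ g⁻¹.1.1 - 1 ∈ D.Fl K j}
  mul_mem' {a b} h h' := ⟨fl_mul (by omega) h.1 h'.1, by
    rw [_root_.mul_inv_rev]; exact fl_mul (by omega) h'.2 h.2⟩
  one_mem' := by simp
  inv_mem' h := ⟨h.2, by simpa only [inv_inv] using h.1⟩

theorem ad_fl {j : ℕ} (h : u ∈ uj D K j) (hM : M ∈ D.Fl K i) :
    Ad u.1 M - M ∈ D.Fl K (i + j) := by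
  have e : u⁻¹.1.1 ∈ D.Fl K 0 := by
    simpa using add_mem (Chev.Fl.mono h.2 (Int.natCast_nonneg j)) one_fl
  rw [show Ad u.1 M - M = (u.1.1 - 1) * M * u⁻¹.1.1 + M * (u⁻¹.1.1 - 1) by
    rw [Ad_apply, Subgroup.coe_inv]; noncomm_ring]
  exact add_mem (Chev.Fl.mono (Chev.Fl.mul (Chev.Fl.mul h.1 hM) e) (by omega)) (Chev.Fl.mul hM h.2)

theorem x_uj {j : ℕ} (h : δ ∈ D.R.Φ) (hj : (j : ℤ) ≤ D.hd δ) (t : K) :
    (GG D K).x δ t ∈ uj D K j := by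
  have q := (mem_Φ.1 h).rh
  have a : ∀ t, ((GG D K).x δ t).1.1 - 1 ∈ D.Fl K j := fun t => by
    rw [x_val h, sum_range_succ', q.dp.zero, pow_zero, one_smul, map_one, add_sub_cancel_right]
    refine sum_mem fun m _ => Submodule.smul_mem _ _ (Dg.fl (DP_dg q.dp q.dg _) ?_)
    rw [hd_smul]
    push_cast
    nlinarith [mul_nonneg (Int.natCast_nonneg m) ((Int.natCast_nonneg j).trans hj)]
  exact ⟨a t, GG_ok.x_neg h t ▸ a (-t)⟩

theorem ad_add {j : ℕ} (h : Zer J ψ) (hγ : γ ∈ D.R.Φ) (hJ : D.R.In J γ) (h1 : 1 ≤ j)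
    (e : -(j : ℤ) ≤ D.hd γ) (hu : u ∈ (GG D K).GJ J ⊓ uj D K j) (hv : v ∈ (GG D K).GJ J ⊓ uj D K j) :
    ψ (Ad (u * v).1 (ee D K γ)) = ψ (Ad u.1 (ee D K γ)) + ψ (Ad v.1 (ee D K γ)) := by
  have l := lie_e (K := K) (mem_Φ.1 hγ) hJ
  have r := sub_mem (lie_ok D K J GG_ok v hv.1 _ l) l
  have z := zer_fl h (sub_mem (lie_ok D K J GG_ok u hu.1 _ r) r)
    (Chev.Fl.mono (ad_fl hu.2 (ad_fl hv.2 (Dg.fl (ee_dg hγ) e))) (by omega))
  simp only [map_sub, h γ hγ hJ] at z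
  rw [Subgroup.coe_mul, Ad_mul]
  linear_combination z

theorem ad_one (h : Zer J ψ) (hγ : γ ∈ D.R.PJ J) (hδ : δ ∈ D.R.PJ J) (t : K) :
    ψ (Ad ((GG D K).x δ t).1 (ee D K (-γ))) =
      if δ = γ then t * ψ ⁅ee D K γ, ee D K (-γ)⁆ else 0 := by
  have R := R_ok D
  have q := (mem_Φ.1 hδ.1).rh
  have n := R.neg_mem hγ.1
  have d : ∀ m : ℕ, ct K (adp (D.EE δ) (D.EE (-γ) 1) m) ∈ D.Dg K (-γ + (m : ℤ) • δ) := fun m => by
    rw [adp, map_sum]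
    refine sum_mem fun a ha => ?_
    rw [map_zsmul, map_mul, map_mul]
    refine zsmul_mem ?_ _
    have := Dg.mul (Dg.mul (DP_dg (k := K) q.dp q.dg a) (ee_dg n)) (DP_dg q.dp q.dg (m - a))
    rwa [Nat.cast_sub (mem_range_succ_iff.1 ha), sub_smul, add_comm _ (-γ), add_assoc,
      add_sub_cancel] at this
  have k : ∀ m : ℕ, -γ + (m : ℤ) • δ = 0 → δ = γ ∧ m = 1 := fun m e => by
    have e' : (1 : ℤ) • γ = (m : ℤ) • δ := by rw [one_smul, ← neg_add_eq_zero, e]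
    obtain rfl : γ = δ := (R.reduced hγ.1 hδ.1 one_ne_zero e').resolve_right fun c =>
      R.not_both hγ.1 hγ.2.1 (c ▸ neg_nonpos.2 hδ.2.1)
    exact ⟨rfl, by exact_mod_cast (smul_left_injective ℤ q.ne e').symm⟩
  rw [zer_cp h (lie_ok D K J GG_ok _ (Subgroup.mem_sup_left (RG.x_mem hδ.1 hδ.2.2 t)) _
    (lie_e (mem_Φ.1 n) hγ.2.2.neg)), GG_x (mem_Φ.1 hδ.1), ad_exU, map_sum]
  split_ifs with e
  · subst e
    have p : 0 < D.n := Nat.pos_of_ne_zero fun z => (mem_Φ.1 hδ.1).2.elim fun M m =>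
      m.2.1 (Matrix.ext fun a _ => (Fin.cast z a).elim0)
    rw [sum_eq_single 1 (fun m _ hm => by
      rw [map_smul, cp_ne (d m) fun c => hm (k m c).2, smul_zero]) fun c =>
        (c (mem_range.2 (by omega))).elim, map_smul, cp_self (by simpa using d 1), map_smul, pow_one,
      adp_one q.dp, smul_eq_mul, Ring.lie_def, Ring.lie_def, map_sub, map_mul, map_mul]
  · rw [sum_eq_zero fun m _ => by rw [map_smul, cp_ne (d m) fun c => e (k m c).1, smul_zero],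
      map_zero]

theorem lead {S : Set D.Q} (h : Reg J ψ) (hS : D.R.Cl S) (hJ : S ⊆ D.R.PJ J)
    (hu : u ∈ (GG D K).X S) (z : ∀ γ ∈ S, ψ (Ad u.1 (ee D K (-γ))) = 0) : u = 1 := by
  classical
  have R := R_ok D
  have f : S.Finite := RS.Pos_finite.subset hS.1
  have l1 := f.toFinset.nodup_toList
  have l2 : ∀ γ, γ ∈ f.toFinset.toList ↔ γ ∈ S := fun γ => by simp
  generalize f.toFinset.toList = l at l1 l2
  obtain ⟨c, rfl⟩ := GG_ok.exists_P R hS l1 l2 hu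
  by_contra hn
  obtain ⟨γ, ⟨g1, g2⟩, g3⟩ := Set.exists_min_image {γ | γ ∈ S ∧ c γ ≠ 0} D.hd
    (f.subset fun _ e => e.1) (by
      by_contra e
      exact hn (GG_ok.P_zero (fun γ a => (hJ ((l2 γ).1 a)).1) fun γ a => by_contra fun b =>
        e ⟨γ, (l2 γ).1 a, b⟩))
  have p := hd_pos (hJ g1).2.1 (mem_Φ.1 (hJ g1).1).1
  obtain ⟨j, hj⟩ := Int.eq_ofNat_of_zero_le p.le
  have x : ∀ δ ∈ S, (GG D K).x δ (c δ) ∈ (GG D K).GJ J ⊓ uj D K j := fun δ e => by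
    refine ⟨Subgroup.mem_sup_left (RG.x_mem (hJ e).1 (hJ e).2.2 _), ?_⟩
    by_cases b : c δ = 0
    · rw [b, GG_ok.x_zero (hJ e).1]; exact one_mem _
    · exact x_uj (hJ e).1 (hj ▸ g3 δ ⟨e, b⟩) _
  have key : ∀ l : List D.Q, l.Nodup → (∀ δ ∈ l, δ ∈ S) →
      (GG D K).P l c ∈ (GG D K).GJ J ⊓ uj D K j ∧ ψ (Ad ((GG D K).P l c).1 (ee D K (-γ))) =
        if γ ∈ l then c γ * ψ ⁅ee D K γ, ee D K (-γ)⁆ else 0 := fun l a b => by
    induction l with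
    | nil => exact ⟨one_mem _, by
        rw [RG.P_nil, Ad_apply, Subgroup.coe_one, inv_one, Units.val_one, one_mul, mul_one]
        exact h.1 _ (R.neg_mem (hJ g1).1) (hJ g1).2.2.neg⟩
    | cons δ l ih =>
      obtain ⟨a1, a2⟩ := List.nodup_cons.1 a
      obtain ⟨i1, i2⟩ := ih a2 fun δ e => b δ (List.mem_cons_of_mem _ e)
      have s := b δ List.mem_cons_self
      refine ⟨mul_mem (x δ s) i1, ?_⟩
      rw [RG.P_cons, ad_add h.1 (R.neg_mem (hJ g1).1) (hJ g1).2.2.neg (j := j) (by omega) (by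
        have := hd_smul (-1) γ
        rw [neg_one_smul] at this
        omega) (x δ s) i1, i2, ad_one h.1 (hJ g1) (hJ s)]
      by_cases e : δ = γ
      · subst e; simp [a1]
      · simp [e, Ne.symm e]
  have := (key l l1 fun δ => (l2 δ).1).2
  rw [z γ g1, if_pos ((l2 γ).2 g1)] at this
  exact mul_ne_zero g2 (h.2 γ (hJ g1).1 (hJ g1).2.2) this.symm

theorem ad_rep [Infinite K] {w : D.R.Aut} (h : (GG D K).Rep u w) (hγ : γ ∈ D.R.Φ) : ∃ c : Kˣ,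
    Ad u.1 (ee D K γ) = (c : K) • ee D K (w γ) ∧
      Ad u.1 (ee D K (-γ)) = ((c⁻¹ : Kˣ) : K) • ee D K (-w γ) :=
  have R := R_ok D
  have m := R.map_mem h.mem_W hγ
  let ⟨c, e⟩ := GG_ok.rep_conj R h hγ
  ⟨c, ad_ee hγ m fun t => (e t).1, ad_ee (R.neg_mem hγ) (R.neg_mem m) fun t => (e t).2⟩

theorem reg_rep [Infinite K] {w : D.R.Aut} (r : Reg J ψ) (h : (GG D K).Rep u w)
    (hw : w ∈ D.R.WJ J) : Reg J (ψ ∘ₗ Ad u.1) := by
  have R := R_ok D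
  refine ⟨fun γ a b => ?_, fun γ a b => ?_⟩ <;> obtain ⟨c, e1, e2⟩ := ad_rep h a
  · rw [LinearMap.comp_apply, e1, map_smul, r.1 _ (R.map_mem h.mem_W a) (R.map_In hw b), smul_zero]
  · have : Ad u.1 ⁅ee D K γ, ee D K (-γ)⁆ = ⁅Ad u.1 (ee D K γ), Ad u.1 (ee D K (-γ))⁆ := by
      simp only [Ring.lie_def, Ad_apply, mul_sub, sub_mul, mul_assoc, Units.inv_mul_cancel_left]
    rw [LinearMap.comp_apply, this, e1, e2, smul_lie, lie_smul, smul_smul, Units.mul_inv, one_smul]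
    exact r.2 _ (R.map_mem h.mem_W a) (R.map_In hw b)

theorem trp : TRP := fun D K _ _ J ψ r g hg z => by
  have R := R_ok D
  obtain ⟨u, hu, m, w, hw, h, v, hv, e⟩ := GG_ok.bruhatJ R (inv_mem hg)
  obtain rfl : g = v⁻¹ * m⁻¹ * u⁻¹ := by rw [← inv_inv g, e]; group
  have u1 : u ∈ uj D K 0 := RG.X_le (fun γ a b t => x_uj b
    (hd_pos a.2.1 (mem_Φ.1 b).1).le t) hu
  obtain rfl : v = 1 := inv_eq_one.1 (lead r (RS.cl_Inv w) (R.Inv_sub hw) (inv_mem hv) fun δ a => by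
    have b := R.neg_mem (R.map_mem h.mem_W a.1)
    have f : ee D K (-w δ) ∈ D.Fl K 1 :=
      Dg.fl (ee_dg b) (hd_pos (neg_nonneg.2 a.2.2) (mem_Φ.1 b).1)
    have y := zer_fl (ψ := ψ ∘ₗ Ad (v⁻¹ * m⁻¹ * u⁻¹).1) z (lie_ok D K J GG_ok u
      (RG.UJ_le_GJ J hu) _ (lie_e (mem_Φ.1 b) (R.map_In hw (R.Inv_sub hw a).2.2).neg))
      (by simpa using add_mem (Chev.Fl.mono (ad_fl u1 f) (by simp)) f)
    obtain ⟨c, e1, -⟩ := ad_rep h.inv b
    rw [LinearMap.comp_apply, ← Ad_mul, ← Subgroup.coe_mul, inv_mul_cancel_right, Subgroup.coe_mul,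
      Ad_mul, e1, map_neg, RS.inv_app, map_smul, map_smul] at y
    exact (smul_eq_zero.1 y).resolve_left c.ne_zero)
  obtain rfl : u = 1 := inv_eq_one.1 (lead (reg_rep r h.inv (inv_mem hw)) (RS.cl_PJ J) le_rfl
    (inv_mem hu) fun γ a => by
      simpa only [inv_one, one_mul, Subgroup.coe_mul, Ad_mul, LinearMap.comp_apply] using
        z _ (R.neg_mem a.1) a.2.2.neg)
  simpa using inv_mem (GG_ok.rep_NJ R h hw)

end Vale.Agent.P011UC
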