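import Vale.Agent.P011UC.Defs
import Vale.Agent.P011UP.Std

/-!
The rational points of a stable torus are dense.
-/

set_option autoImplicit false
set_option linter.all false

namespace Vale.Agent.P011UC

open Matrix Subgroup Vale.Agent.P183CH Vale.Agent.P011LD Vale.Agent.P011U Vale.Agent.P011UP

namespace Td

variable {k K : Type} [Field k] [Field K] [Algebra k K] {V : Type} [AddCommGroup V] [Module K V]
  {u : V → K}

/-- polynomial functions divided by powers of `u` -/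
def LL (hu : LP u) : Subring (V → K) where
  carrier := {F | ∃ (p : V → K) (N : ℕ), LP p ∧ ∀ y, u y ≠ 0 → F y * u y ^ N = p y}
  one_mem' := ⟨_, 0, LP.const 1, fun _ _ => by simp⟩
  zero_mem' := ⟨_, 0, LP.const 0, fun _ _ => by simp⟩
  mul_mem' := fun ⟨p, N, hp, e⟩ ⟨q, M, hq, e'⟩ => ⟨_, N + M, hp.mul hq, fun y h => by
    rw [← e y h, ← e' y h, Pi.mul_apply]; ring⟩
  add_mem' := fun ⟨p, N, hp, e⟩ ⟨q, M, hq, e'⟩ => ⟨_, N + M,
    (hp.mul (LP.prod (Finset.range M) fun _ _ => hu)).add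
      (hq.mul (LP.prod (Finset.range N) fun _ _ => hu)), fun y h => by
    rw [← e y h, ← e' y h, Pi.add_apply, Finset.prod_const, Finset.prod_const, Finset.card_range,
      Finset.card_range]; ring⟩
  neg_mem' := fun ⟨p, N, hp, e⟩ => ⟨_, N, (LP.const (-1)).mul hp, fun y h => by
    rw [← e y h, Pi.neg_apply]; ring⟩

variable (hu : LP u)

theorem ll_lp {p : V → K} (hp : LP p) : p ∈ LL hu := ⟨p, 0, hp, fun _ _ => by simp⟩

theorem ll_zpow {v w : V → K} (hv : LP v) (hw : LP w) (e : ∀ y, u y = v y * w y) (m : ℤ) :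
    (fun y => v y ^ m) ∈ LL hu := by
  cases m with
  | ofNat n => simpa [Pi.pow_def] using pow_mem (ll_lp hu hv) n
  | negSucc n =>
    have : (fun y => (v y)⁻¹) ∈ LL hu := ⟨w, 1, hw, fun y h => by
      rw [e] at h
      rw [pow_one, e, inv_mul_cancel_left₀ (left_ne_zero_of_mul h)]⟩
    simpa [Pi.pow_def] using pow_mem this (n + 1)

theorem ll_prod {ι : Type} (s : Finset ι) {f : ι → V → K} (h : ∀ i ∈ s, f i ∈ LL hu) :
    (fun y => ∏ i ∈ s, f i y) ∈ LL hu := by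
  simpa only [Finset.prod_fn] using prod_mem h

theorem ll_mv {J : Type} (p : MvPolynomial J K) {f : J → V → K} (hf : ∀ j, f j ∈ LL hu) :
    (fun x => MvPolynomial.eval (fun j => f j x) p) ∈ LL hu := by
  induction p using MvPolynomial.induction_on with
  | C c => simpa using ll_lp hu (LP.const c)
  | add p q hp hq => simpa [Pi.add_def] using add_mem hp hq
  | mul_X p j hp => simpa [Pi.mul_def] using mul_mem hp (hf j)

theorem ll_den [Infinite k] {S : Set V} (h : Dn k K S) {F : V → K} (hF : F ∈ LL hu) {y : V}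
    (h1 : u y ≠ 0) (h2 : F y ≠ 0) : ∃ x ∈ S, u x ≠ 0 ∧ F x ≠ 0 := by
  obtain ⟨p, N, hp, e⟩ := hF
  obtain ⟨x, hx, h3⟩ := h.den (hp.mul hu)
    ⟨y, mul_ne_zero (e y h1 ▸ mul_ne_zero h2 (pow_ne_zero _ h1)) h1⟩
  have h4 := right_ne_zero_of_mul h3
  exact ⟨x, hx, h4, left_ne_zero_of_mul (e x h4 ▸ left_ne_zero_of_mul h3)⟩

theorem exists_quot [Algebra.IsAlgebraic k K] (P : Subgroup (K ≃ₐ[k] K)) (S : Finset K) :
    ∃ N : Subgroup P, (∀ σ, σ ∈ N ↔ ∀ x ∈ S, σ.1 x = x) ∧ Finite (P ⧸ N) ∧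
      ∀ q q' : P ⧸ N, (∀ x ∈ S, q.out.1 x = q'.out.1 x) → q = q' := by
  let N : Subgroup P :=
    { carrier := {σ | ∀ x ∈ S, σ.1 x = x}
      mul_mem' := fun {σ τ} hσ hτ x hx => by
        show σ.1 (τ.1 x) = x
        rw [hτ x hx, hσ x hx]
      one_mem' := fun _ _ => rfl
      inv_mem' := fun {σ} hσ x hx => σ.1.injective (by
        rw [hσ x hx]; exact σ.1.apply_symm_apply x) }
  have hq : ∀ q q' : P ⧸ N, (∀ x ∈ S, q.out.1 x = q'.out.1 x) → q = q' := fun q q' e => by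
    rw [← q.out_eq', ← q'.out_eq', QuotientGroup.eq]
    exact fun x hx => q.out.1.injective ((q.out.1.apply_symm_apply _).trans (e x hx).symm)
  exact ⟨N, fun _ => Iff.rfl, Finite.of_injective
    (fun q => fun x : S => (⟨q.out.1 x, by
      rw [Polynomial.mem_rootSet, Polynomial.aeval_algHom_apply q.out.1, minpoly.aeval, map_zero]
      exact ⟨minpoly.ne_zero (Algebra.IsIntegral.isIntegral _), rfl⟩⟩ :
        (minpoly k x.1).rootSet K)) fun q q' e =>
    hq q q' fun x hx => congrArg Subtype.val (congrFun e ⟨x, hx⟩), hq⟩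

theorem conj_diag {n : Type} [Fintype n] [DecidableEq n] (g : GL n K) : ∃ β : n → n,
    ∀ d d' : n → K, g.1 * diagonal d = diagonal d' * g.1 → ∀ a, d' a = d (β a) := by
  have : ∀ a, ∃ b, g.1 a b ≠ 0 := fun a => by
    by_contra c
    push Not at c
    simpa [mul_apply, c] using congrFun (congrFun g.mul_inv a) a
  choose β hβ using this
  refine ⟨β, fun d d' e a => mul_right_cancel₀ (hβ a) ?_⟩
  have := congrFun (congrFun e a) (β a)
  rw [mul_diagonal, diagonal_mul] at this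
  rw [← this, mul_comm]

/-- the action on the torus is monomial -/
theorem act_T {D : Chev} {σ : K ≃ₐ[k] K} {π : Equiv.Perm (Fin D.R.r)} {g : D.grp K}
    (hg : g ∈ (GG D K).N) {c : Fin D.R.r → Kˣ} {δ : MulAut (D.grp K)}
    (h : Dia (GG D K) (σ : K →+* K) π c δ) : ∃ e : Fin D.n → Fin D.R.r → ℤ, ∀ s,
      (MulAut.conj g * δ) (GG_ok.hT s) ∈ (GG D K).T ∧
      ((MulAut.conj g * δ) (GG_ok.hT s)).1.1 = diagonal fun b => ∏ i, σ (s i) ^ e b i := by
  have h1 : Std (GG D K) (MulAut.conj g * δ : MulAut _) σ g c π :=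
    ⟨h.sym, fun i t => ⟨congrArg (g * · * g⁻¹) (h.pos i t), congrArg (g * · * g⁻¹) (h.neg i t)⟩⟩
  obtain ⟨β, hβ⟩ := conj_diag g.1
  refine ⟨fun b i => D.μ (π i) (β b), fun s => ?_⟩
  rw [std_hT GG_ok h1]
  have h2 := GG_ok.nm_N_T (Chev.R_ok D) g hg _
    (GG_ok.hT_mem fun i => Units.map (σ : K →* K) (s (π.symm i)))
  refine ⟨h2, ?_⟩
  obtain ⟨s', e⟩ := GG_ok.exists_hT h2
  have h3 := congrArg (fun x : D.grp K => x.1.1) (eq_mul_inv_iff_mul_eq.1 e).symm
  simp only [Subgroup.coe_mul, Units.val_mul] at h3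
  rw [hT_val, hT_val] at h3
  rw [← e, hT_val]
  refine congrArg diagonal (funext fun b => (hβ _ _ h3 b).trans ?_)
  rw [← Equiv.prod_comp π, Units.coe_prod]
  simp

end Td

open Td

theorem tden : TDEN := by
  intro D k K _ _ _ _ _ P a π _ hA hV f ⟨t0, ht0, hf⟩
  classical
  obtain ⟨S, hS⟩ := hA.cont
  obtain ⟨N, hN, fin, hq⟩ := exists_quot P S
  have := Fintype.ofFinite (P ⧸ N)
  have h1 : ∀ σ : P, ∃ e : Fin D.n → Fin D.R.r → ℤ, ∀ s, a σ (GG_ok.hT s) ∈ (GG D K).T ∧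
      (a σ (GG_ok.hT s)).1.1 = diagonal fun b => ∏ i, σ.1 (s i) ^ e b i := fun σ => by
    obtain ⟨g, hg, c, δ, h, e⟩ := hV σ.1 σ.2
    exact e ▸ act_T hg h
  choose e h1 h2 using h1
  have h3 : ∀ σ ∈ N, ∀ s, a σ.1 (GG_ok.hT s) = GG_ok.hT fun i => Units.map (σ.1 : K →* K) (s i) :=
    fun σ m s => by
      have h := hS σ.1 σ.2 ((hN σ).1 m)
      have hR := Chev.R_ok D
      have : Std (GG D K) (a σ.1) σ.1 1 1 1 := ⟨fun _ _ => rfl, fun i t => ⟨by
        simpa using h _ (hR.simple i) t, by simpa using h _ (hR.neg_mem (hR.simple i)) t⟩⟩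
      exact (std_hT GG_ok this s).trans (by rw [one_mul, inv_one, mul_one]; rfl)
  letI : CommGroup (GG D K).T :=
    { (inferInstance : Group (GG D K).T) with
      mul_comm := fun x y => Subtype.ext (GG_ok.T_comm x.2 y.2) }
  let b : P → (GG D K).T →* (GG D K).T := fun σ =>
    ((a σ.1).toMonoidHom.comp (GG D K).T.subtype).codRestrict _ fun t => by
      obtain ⟨s, e⟩ := GG_ok.exists_hT t.2
      show a _ t.1 ∈ _
      exact e ▸ h1 σ s
  have hb : ∀ σ t, (b σ t).1 = a σ.1 t.1 := fun _ _ => rfl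
  let Θ : (P ⧸ N → Fin D.R.r → Kˣ) → (GG D K).T := fun s =>
    ∏ q, b q.out ⟨GG_ok.hT (s q), GG_ok.hT_mem _⟩
  have h4 : ∀ s, (Θ s).1.1.1 =
      diagonal fun j => ∏ q : P ⧸ N, ∏ i, q.out.1 (s q i) ^ e q.out j i := fun s => by
    show (∏ q, b q.out ⟨GG_ok.hT (s q), GG_ok.hT_mem _⟩).1.1.1 = _
    induction (Finset.univ : Finset (P ⧸ N)) using Finset.cons_induction with
    | empty => simp
    | cons q l hq ih =>
      simp only [Finset.prod_cons, Subgroup.coe_mul, Units.val_mul, ih]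
      exact (congrArg (· * _) (h2 q.out (s q))).trans (diagonal_mul_diagonal _ _)
  have hu : LP fun y : P ⧸ N → Fin D.R.r → K => ∏ x : (P ⧸ N) × Fin D.R.r, y x.1 x.2 :=
    LP.prod _ fun x _ => LP.entry x.1 x.2
  have hF := ll_mv hu f (f := fun x y => diagonal
      (fun j => ∏ q : P ⧸ N, ∏ i, y q i ^ e q.out j i) x.1 x.2) fun x => by
    by_cases c : x.1 = x.2
    · simp only [c, diagonal_apply_eq]
      exact ll_prod hu _ fun q _ => ll_prod hu _ fun i _ => ll_zpow hu (LP.entry q i)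
        (LP.prod (Finset.univ.erase (q, i)) fun x _ => LP.entry x.1 x.2)
        (fun y => (Finset.mul_prod_erase _ _ (Finset.mem_univ (q, i))).symm) _
    · simp only [diagonal_apply_ne _ c]
      exact zero_mem _
  have sl : Sl (N.map P.subtype) fun σ (v : Fin D.R.r → K) => σ ∘ v :=
    ⟨fun σ _ v w => funext fun i => map_add σ _ _, fun σ _ c v => funext fun i => map_mul σ _ _,
      fun _ _ _ _ _ => rfl, fun v => Op.vec _ v⟩
  have dn := sl.dn_conj (fun q : P ⧸ N => q.out.1) (fun q q' h => hq q q' fun x hx => h x (by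
      rintro _ ⟨τ, m, rfl⟩
      exact (hN τ).1 m x hx)) (fun q v => q.out.1 ∘ v)
    (fun q v w => funext fun i => map_add _ _ _) (fun q c v => funext fun i => map_mul _ _ _)
    fun q v => ⟨q.out.1.symm ∘ v, funext fun i => q.out.1.apply_symm_apply _⟩
  obtain ⟨s0, rfl⟩ := GG_ok.exists_hT ht0
  have m1 : ((1 : P) : P ⧸ N).out ∈ N := by
    simpa using QuotientGroup.eq.1 ((1 : P) : P ⧸ N).out_eq'.symm
  let s1 : P ⧸ N → Fin D.R.r → Kˣ := Pi.mulSingle ((1 : P) : P ⧸ N)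
    fun i => Units.map (((1 : P) : P ⧸ N).out.1.symm : K →* K) (s0 i)
  have h5 : (Θ s1).1 = GG_ok.hT s0 := by
    show (∏ q, b q.out ⟨GG_ok.hT (s1 q), GG_ok.hT_mem _⟩).1 = _
    rw [Finset.prod_eq_single ((1 : P) : P ⧸ N) (fun q _ c => Subtype.ext (by
      show a _ (GG_ok.hT (s1 q)) = 1
      simp [s1, Pi.mulSingle_eq_of_ne c])) (by simp)]
    rw [hb]
    refine (h3 _ m1 _).trans (congrArg _ (funext fun i => Units.ext ?_))
    simp [s1]
  obtain ⟨_, ⟨x, hx, rfl⟩, h6, h7⟩ := ll_den hu dn hF (y := fun q i => q.out.1 (s1 q i))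
    (Finset.prod_ne_zero_iff.2 fun x _ => by simp) (by rw [← h5, ev, h4] at hf; exact hf)
  have h8 : ∀ i, x i ≠ 0 := fun i c =>
    Finset.prod_ne_zero_iff.1 h6 (((1 : P) : P ⧸ N), i) (Finset.mem_univ _) (by simp [c])
  refine ⟨Θ fun _ i => Units.mk0 _ (h8 i), Subtype.prop _, ?_, by rw [ev, h4]; exact h7⟩
  have key : ∀ σ : P, b (σ : P ⧸ N).out ⟨GG_ok.hT fun i => Units.mk0 _ (h8 i), GG_ok.hT_mem _⟩ =
      b σ ⟨GG_ok.hT fun i => Units.mk0 _ (h8 i), GG_ok.hT_mem _⟩ := fun σ => by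
    obtain ⟨n, e⟩ := QuotientGroup.mk_out_eq_mul N σ
    refine Subtype.ext ?_
    rw [hb, hb, e, Subgroup.coe_mul, hA.mul _ σ.2 _ n.1.2, MulAut.mul_apply, h3 _ n.2]
    exact congrArg _ (congrArg _ (funext fun i => Units.ext (congrFun (hx _ ⟨_, n.2, rfl⟩) i)))
  simp only [Fix, mem_iInf]
  intro γ hγ
  refine congrArg Subtype.val (show b ⟨γ, hγ⟩ (Θ _) = Θ _ from ?_)
  refine (map_prod _ _ _).trans
    (Fintype.prod_equiv (MulAction.toPerm (⟨γ, hγ⟩ : P)) _ _ fun q => ?_)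
  rw [MulAction.toPerm_apply, ← q.out_eq', MulAction.Quotient.smul_mk]
  refine Eq.trans ?_ (key _).symm
  rw [q.out_eq']
  exact Subtype.ext (DFunLike.congr_fun (hA.mul _ hγ _ q.out.2) _).symm

end Vale.Agent.P011UC
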