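import Vale.Agent.P011UC.Rat
import Vale.Agent.P011UC.Gen
import Vale.Agent.P011UC.Trp
import Vale.Agent.P011UHN.Den
import Vale.Agent.P011UP.Lev
import Vale.Agent.P011UV.Par

/-!
Normal forms, stable apartments and density without hypotheses.
-/

set_option autoImplicit false
set_option linter.all false

namespace Vale.Agent.P011UC

open Vale.Agent.P011L Vale.Agent.P183CH Vale.Agent.P011U

theorem nfx0 : NFX := nfx P011UB.aut

theorem lev0 : LEV := P011UP.lev nfx0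

theorem parx0 : PARX := P011UV.parx nfx0

theorem denj0 : DENJ := P011UHN.denj (apt0 trp gen)

theorem aptj0 : APTJ := P011UHN.aptj (apt0 trp gen)

theorem den0 : P011U.DEN := P011UHN.den (apt0 trp gen)

/-- Every form has a stable apartment in general position. -/
theorem apt_tw : AllI fun _ K _ _ _ D T => ∀ f : MvPolynomial (Fin D.n × Fin D.n) K,
    (∃ y : D.grp K, ev y f ≠ 0) → ∃ y : D.grp K, ev y f ≠ 0 ∧ ∀ σ, ∃ n ∈ (GG D K).N, ∃ c π,
      Std (GG D K) (fun g => y⁻¹ * T.a σ (y * g * y⁻¹) * y) σ n c π := by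
  intro k K _ _ _ _ _ D hD T f ⟨y, hy⟩
  haveI := Infinite.of_injective _ (algebraMap k K).injective
  haveI := IsSepClosure.sep_closed k (K := K)
  obtain ⟨g, c, π, h, -⟩ := nf_of P011UB.aut hD T
  have e := (GG_ok (D := D) (k := K)).GJ_univ (Chev.R_ok D)
  obtain ⟨h1, h2⟩ := act_of T h ⊤
  obtain ⟨y, -, h3, h4⟩ := aptj0 D k K ⊤ T.a π Set.univ GG_ok h1 h2 (fun _ _ _ => Iff.rfl)
    (e ▸ h1.std) hD f ⟨y, e ▸ trivial, hy⟩
  refine ⟨y, h3, fun σ => ?_⟩
  obtain ⟨n, hn, c, δ, h5, h6⟩ := h4 σ trivial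
  have h7 := (std_dia (σ := (σ : K →+* K)) (g := n) (ψ := tw T.a (MulAut.conj y) σ)).2 (by
    rwa [h6, ← mul_assoc, ← map_mul, inv_mul_cancel, map_one, one_mul])
  exact ⟨n, RG.NJ_univ (Γ := GG D K) ▸ hn, c, π σ,
    (congrArg (Std _ · _ _ _ _) (funext fun g => by simp [tw])).mp h7⟩

end Vale.Agent.P011UC
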