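import Vale.Agent.P011UC.Defs
import Vale.Agent.P011U.IF2
import Vale.Agent.P011LT.T1
import Mathlib.FieldTheory.Normal.Closure

/-!
Transport of twisted actions, normal forms.
-/

set_option autoImplicit false
set_option linter.all false

namespace Vale.Agent.P011UC

open Matrix Vale.Agent.P011L Vale.Agent.P183CH Vale.Agent.P011LD Vale.Agent.P011U
  Vale.Agent.P011LT

section

variable {k K : Type} [Field k] [Field K] [Algebra k K] {l m n : Type} [Fintype l] [DecidableEq l]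
  [Fintype m] [DecidableEq m] [Fintype n] [DecidableEq n] {G : Subgroup (GL l K)}
  {H : Subgroup (GL m K)} {J : Subgroup (GL n K)}

/-- maps whose entries are polynomials in the conjugates of the entries -/
def SP (σ : K ≃ₐ[k] K) (f : G → H) : Prop :=
  ∀ i j, ∃ p : MvPolynomial (l × l) K, ∀ g : G,
    (f g).1.1 i j = MvPolynomial.eval (fun e => σ (g.1.1 e.1 e.2)) p

theorem SP.comp {σ τ : K ≃ₐ[k] K} {f : H → J} {f' : G → H} (h : SP σ f) (h' : SP τ f') :
    SP (σ * τ) fun g => f (f' g) := fun i j => by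
  choose q hq using h'
  obtain ⟨p, hp⟩ := h i j
  refine ⟨MvPolynomial.bind₁ (fun e => MvPolynomial.map (σ : K →+* K) (q e.1 e.2)) p, fun g => ?_⟩
  rw [hp]
  simp only [hq, map_eval]
  exact (MvPolynomial.eval₂Hom_bind₁ _ _ _ _).symm

theorem SP.of_map {σ : K ≃ₐ[k] K} {f : G → G} (h : ∀ g, (f g).1.1 = g.1.1.map σ) : SP σ f :=
  fun i j => ⟨MvPolynomial.X (i, j), fun g => by rw [h, MvPolynomial.eval_X]; rfl⟩

variable (k) in
theorem sp_one {φ : G ≃* H} : SP (1 : K ≃ₐ[k] K) φ ↔ Pol φ := Iff.rfl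

theorem pol_trans {φ : G ≃* H} {ψ : H ≃* J} (h : Pol φ) (h' : Pol ψ) : Pol (φ.trans ψ) := by
  have := ((sp_one K).2 h').comp ((sp_one K).2 h)
  rw [mul_one] at this
  exact (sp_one K).1 this

theorem pol_refl : Pol (MulEquiv.refl G) := (sp_one K).1 (SP.of_map fun _ => rfl)

theorem pol_of_mul {φ : G ≃* G} (A B : Matrix l l K) (h : ∀ g, (φ g).1.1 = A * g.1.1 * B) :
    Pol φ := fun i j =>
  ⟨∑ b, (∑ a, MvPolynomial.C (A i a) * MvPolynomial.X (a, b)) * MvPolynomial.C (B b j), fun g => by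
    simp [h, mul_apply]⟩

theorem pol_conj (y : G) : Pol (MulAut.conj y) := pol_of_mul y.1.1 (y⁻¹).1.1 fun _ => rfl

theorem pol_conj' (y : G) : Pol (MulAut.conj y).symm := pol_of_mul (y⁻¹).1.1 y.1.1 fun g => by
  rw [MulAut.conj_symm_apply]
  rfl

theorem near_pol [Algebra.IsAlgebraic k K] {φ : G ≃* H} (h : Pol φ) :
    ∃ F : IntermediateField k K, FiniteDimensional k F ∧ ∀ σ : K ≃ₐ[k] K, (∀ x ∈ F, σ x = x) →
      ∀ g g' : G, g'.1.1 = g.1.1.map σ → (φ g').1.1 = (φ g).1.1.map σ := by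
  classical
  choose q hq using h
  let S : Finset K := Finset.univ.biUnion fun e : m × m => (q e.1 e.2).coeffs
  refine ⟨.adjoin k (S : Set K), IntermediateField.finiteDimensional_adjoin fun x _ =>
    (Algebra.IsAlgebraic.isAlgebraic x).isIntegral, fun σ hσ g g' e => Matrix.ext fun i j => ?_⟩
  have h3 : MvPolynomial.map (σ : K →+* K) (q i j) = q i j := MvPolynomial.ext _ _ fun d => by
    rw [MvPolynomial.coeff_map]
    by_cases h : d ∈ (q i j).support
    · exact hσ _ (IntermediateField.subset_adjoin _ _ (Finset.mem_coe.2 (Finset.mem_biUnion.2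
        ⟨(i, j), Finset.mem_univ _, MvPolynomial.coeff_mem_coeffs d
          (MvPolynomial.mem_support_iff.1 h)⟩)))
    · rw [MvPolynomial.notMem_support_iff.1 h, map_zero]
  rw [map_apply, hq, hq, map_eval, h3, e]
  rfl

/-- the transport of a twisted action along a polynomial isomorphism -/
noncomputable def tr [Algebra.IsAlgebraic k K] (T : Tw k G) (ψ : G ≃* H) (h : Pol ψ)
    (h' : Pol ψ.symm) : Tw k H where
  a := (MulAut.congr ψ).toMonoidHom.comp T.a
  pol σ := by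
    have := ((sp_one k).2 h).comp (SP.comp (T.pol σ) ((sp_one k).2 h'))
    rwa [one_mul, mul_one] at this
  cont := by
    obtain ⟨F, h1, h2⟩ := T.cont
    obtain ⟨F', h3, h4⟩ := near_pol (k := k) h
    refine ⟨F ⊔ F', inferInstance, fun σ e g => ?_⟩
    have := h4 σ (fun x hx => e x (le_sup_right (a := F) hx)) (ψ.symm g) _
      (h2 σ (fun x hx => e x (le_sup_left (b := F') hx)) _)
    rwa [ψ.apply_symm_apply] at this

theorem tr_a [Algebra.IsAlgebraic k K] (T : Tw k G) (ψ : G ≃* H) (h : Pol ψ) (h' : Pol ψ.symm)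
    (σ : K ≃ₐ[k] K) (g : H) : (tr T ψ h h').a σ g = ψ (T.a σ (ψ.symm g)) := rfl

theorem eqv_tr [Algebra.IsAlgebraic k K] (T : Tw k G) (ψ : G ≃* H) (h : Pol ψ) (h' : Pol ψ.symm) :
    Eqv T (tr T ψ h h') := ⟨ψ, h, h', fun σ g => by rw [tr_a, ψ.symm_apply_apply]⟩

/-- the action `g ↦ y⁻¹ σ(y g y⁻¹) y` -/
noncomputable def cj [Algebra.IsAlgebraic k K] (T : Tw k G) (y : G) : Tw k G :=
  tr T (MulAut.conj y).symm (pol_conj' y) (pol_conj y)

theorem cj_a [Algebra.IsAlgebraic k K] (T : Tw k G) (y : G) (σ : K ≃ₐ[k] K) (g : G) :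
    (cj T y).a σ g = y⁻¹ * T.a σ (y * g * y⁻¹) * y := by
  refine (tr_a T _ (pol_conj' y) (pol_conj y) σ g).trans ?_
  rw [MulAut.conj_symm_apply, MulEquiv.symm_symm, MulAut.conj_apply]

theorem cj_tw [Algebra.IsAlgebraic k K] (T : Tw k G) (y : G) :
    ⇑(cj T y).a = tw T.a (MulAut.conj y) :=
  funext fun σ => MulEquiv.ext fun g => (cj_a T y σ g).trans (by simp [tw])

theorem eqv_cj [Algebra.IsAlgebraic k K] (T : Tw k G) (y : G) : Eqv T (cj T y) := eqv_tr _ _ _ _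

theorem eqv_refl (T : Tw k G) : Eqv T T := ⟨.refl _, pol_refl, pol_refl, fun _ _ => rfl⟩

theorem eqv_symm {T : Tw k G} {T' : Tw k H} (h : Eqv T T') : Eqv T' T := by
  obtain ⟨ψ, h1, h2, h3⟩ := h
  exact ⟨ψ.symm, h2, h1, fun σ g => ψ.injective (by
    rw [← h3, ψ.apply_symm_apply, ψ.apply_symm_apply])⟩

theorem eqv_trans {T : Tw k G} {T' : Tw k H} {T'' : Tw k J} (h : Eqv T T') (h' : Eqv T' T'') :
    Eqv T T'' := by
  obtain ⟨ψ, h1, h2, h3⟩ := h
  obtain ⟨φ, h4, h5, h6⟩ := h'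
  exact ⟨ψ.trans φ, pol_trans h1 h4, pol_trans (φ := φ.symm) (ψ := ψ.symm) h5 h2,
    fun σ g => (h6 σ _).trans (congrArg φ (h3 σ g))⟩

/-- the restriction to the Galois group of an intermediate field -/
noncomputable def res [Algebra.IsAlgebraic k K] (T : Tw k G) (L : IntermediateField k K) :
    Tw L G where
  a := T.a.comp
    { toFun := fun σ => σ.restrictScalars k
      map_one' := rfl
      map_mul' := fun _ _ => rfl }
  pol σ := T.pol _
  cont := by
    obtain ⟨F, h1, h2⟩ := T.cont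
    let b := Module.finBasis k F
    refine ⟨.adjoin L (Set.range fun i => (b i).1), IntermediateField.finiteDimensional_adjoin
      fun x _ => (Algebra.IsAlgebraic.isAlgebraic x).isIntegral, fun σ e g => h2 _ (fun x hx => ?_) g⟩
    have := congrArg Subtype.val (b.sum_repr ⟨x, hx⟩)
    simp only [IntermediateField.coe_sum, IntermediateField.coe_smul] at this
    rw [← this, map_sum]
    exact Finset.sum_congr rfl fun i _ => by
      rw [map_smul]
      exact congrArg _ (e _ (IntermediateField.subset_adjoin _ _ ⟨i, rfl⟩))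

theorem res_res [Algebra.IsAlgebraic k K] (T : Tw k G) (L : IntermediateField k K) :
    Res T L (res T L) := fun _ => rfl

theorem eqv_res {T : Tw k G} {T' : Tw k H} (h : Eqv T T') {L : IntermediateField k K}
    {S : Tw L G} {S' : Tw L H} (e : Res T L S) (e' : Res T' L S') : Eqv S S' := by
  obtain ⟨ψ, h1, h2, h3⟩ := h
  exact ⟨ψ, h1, h2, fun σ g => by rw [e, e', h3]⟩

theorem eqv_ani [Infinite K] {T : Tw k G} {T' : Tw k H} (h : Eqv T T') (an : T.Ani) : T'.Ani := by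
  obtain ⟨ψ, -, h2, h3⟩ := h
  intro g y c h1 h5
  have a3 : ∀ t, (c t).1.1 = g.1 * (diagonal fun i => (t ^ y i).1) * (g⁻¹).1 := fun t => by
    rw [← h1, mul_assoc, Units.mul_inv, mul_one]
  have h4 : ∀ t t', c (t * t') = c t * c t' := fun t t' => Subtype.ext (Units.ext (by
    rw [Subgroup.coe_mul, Units.val_mul, a3 t, mul_assoc, mul_assoc, a3, a3,
      ← mul_assoc (g⁻¹).1, ← mul_assoc (g⁻¹).1, Units.inv_mul, one_mul, ← mul_assoc (diagonal _),
      diagonal_mul_diagonal, mul_assoc]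
    simp only [mul_zpow, Units.val_mul]))
  let w : Kˣ →* G := .mk' (fun t => ψ.symm (c t)) fun t t' => by rw [h4, map_mul]
  obtain ⟨g', y', h6⟩ := diag_of_lau (G.subtype.comp w) fun a b => by
    obtain ⟨q, hq⟩ := h2 a b
    exact Lau.congr (lau_conj (k := K) g y Prod.fst Prod.snd
      (fun t e => congrFun₂ (a3 _) e.1 e.2) q) fun t => hq _
  obtain rfl := an g' y' w h6 fun σ t => ψ.injective (by
    rw [← h3]
    show T'.a σ (ψ (ψ.symm _)) = ψ (ψ.symm _)
    rw [ψ.apply_symm_apply, ψ.apply_symm_apply, h5])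
  refine funext fun i => zpow_eq_one (k := K) fun t => ?_
  have h7 : w t = 1 := Subtype.ext (Units.ext (by
    have := h6 t
    simp only [Pi.zero_apply, zpow_zero, Units.val_one, diagonal_one, mul_one] at this
    exact g'.mul_left_inj.1 (this.trans (one_mul _).symm)))
  have h8 := h1 t
  rw [ψ.symm.injective (h7.trans (map_one _).symm), OneMemClass.coe_one, Units.val_one,
    one_mul] at h8
  have h9 := congrFun₂ (g.mul_right_inj.1 ((mul_one _).trans h8)) i i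
  rw [one_apply_eq, diagonal_apply_eq] at h9
  exact Units.ext h9.symm

theorem near_normal [Algebra.IsAlgebraic k K] {P : (K ≃ₐ[k] K) → Prop} (h : Near k P) :
    Near k fun τ => ∀ σ, P (σ⁻¹ * τ * σ) := by
  obtain ⟨F, h1, h2⟩ := h
  refine ⟨IntermediateField.normalClosure k F K, inferInstance, fun τ e σ => h2 _ fun x hx => ?_⟩
  have := e (σ x) ((σ.toAlgHom.comp F.val).fieldRange_le_normalClosure ⟨⟨x, hx⟩, rfl⟩)
  rw [AlgEquiv.mul_apply, AlgEquiv.mul_apply, this]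
  exact σ.symm_apply_apply x

theorem near_op {P : (K ≃ₐ[k] K) → Prop} (h : Near k P) (Γ : Subgroup (K ≃ₐ[k] K)) : Op Γ P :=
  h.elim fun F ⟨_, h2⟩ => Op.of_field F fun σ _ => h2 σ

theorem op_near [Algebra.IsAlgebraic k K] {P : (K ≃ₐ[k] K) → Prop} (h : Op ⊤ P) : Near k P :=
  h.elim fun S h2 => ⟨.adjoin k (S : Set K), IntermediateField.finiteDimensional_adjoin fun x _ =>
    (Algebra.IsAlgebraic.isAlgebraic x).isIntegral, fun σ e => h2 σ trivial fun x hx =>
      e x (IntermediateField.subset_adjoin _ _ hx)⟩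

end

section

variable {R : RS} {K G : Type} [Field K] [Group G] {Γ : RG R K G} {ψ ψ' : G ≃* G} {σ σ' : K →+* K}
  {g g' : G} {c c' : Fin R.r → Kˣ} {π π' : Equiv.Perm (Fin R.r)}

theorem std_id : Std Γ id id 1 1 1 := ⟨fun _ _ => rfl, fun i u => by simp⟩

theorem std_comp (h : Std Γ ψ σ g c π) (h' : Std Γ ψ' σ' g' c' π') :
    Std Γ (fun x => ψ (ψ' x)) (σ.comp σ') (ψ g' * g)
      (fun i => c (π' i) * Units.map σ.toMonoidHom (c' i)) (π * π') :=
  ⟨fun i j => (h.1 _ _).trans (h'.1 i j), fun i u => ⟨by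
    simp only [(h'.2 i u).1, map_mul, map_inv, (h.2 _ _).1]
    simp [mul_assoc], by
    simp only [(h'.2 i u).2, map_mul, map_inv, (h.2 _ _).2]
    simp [mul_assoc, mul_comm, mul_left_comm]⟩⟩

theorem std_symm (h : Std Γ ψ id g c π) :
    Std Γ ψ.symm id (ψ.symm g⁻¹) (fun i => (c (π.symm i))⁻¹) π⁻¹ :=
  ⟨fun i j => by simpa using (h.1 (π⁻¹ i) (π⁻¹ j)).symm, fun i u => ⟨ψ.injective (by
    simp only [map_mul, map_inv, (h.2 _ _).1]
    simp [mul_assoc]), ψ.injective (by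
    simp only [map_mul, map_inv, (h.2 _ _).2]
    simp [mul_assoc])⟩⟩

theorem std_dia : Std Γ ψ σ g c π ↔ Dia Γ σ π c (MulAut.conj g⁻¹ * ψ) :=
  ⟨fun h => ⟨h.1, fun i t => by simp [(h.2 i t).1, mul_assoc], fun i t => by
    simp [(h.2 i t).2, mul_assoc]⟩, fun h => ⟨h.sym, fun i t => ⟨by
      rw [← h.pos]; simp [mul_assoc], by
      rw [← h.neg]; simp [mul_assoc]⟩⟩⟩

end

variable {k K : Type} [Field k] [Field K] [Algebra k K] {D : Chev}

variable (D) in
/-- the standard action -/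
noncomputable def fE : (K ≃ₐ[k] K) →* MulAut (D.grp K) where
  toFun σ :=
    { toFun := fm D (σ : K →+* K)
      invFun := fm D (σ.symm : K →+* K)
      left_inv := fun g => Subtype.ext (Units.ext (Matrix.ext fun i j => σ.symm_apply_apply _))
      right_inv := fun g => Subtype.ext (Units.ext (Matrix.ext fun i j => σ.apply_symm_apply _))
      map_mul' := map_mul _ }
  map_one' := rfl
  map_mul' _ _ := rfl

theorem fE_val (σ : K ≃ₐ[k] K) (g : D.grp K) : (fE D σ g).1.1 = g.1.1.map σ := rfl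

theorem fE_x (σ : K ≃ₐ[k] K) (γ : D.Q) (t : K) :
    fE D σ ((GG D K).x γ t) = (GG D K).x γ (σ t) := fm_x _ γ t

theorem near_fE (T : Tw k (D.grp K)) : Near k fun τ => T.a τ = fE D τ :=
  T.cont.imp fun _ h => ⟨h.1, fun τ e => MulEquiv.ext fun g => Subtype.ext (Units.ext (h.2 τ e g))⟩

theorem pol_lin (T : Tw k (D.grp K)) (σ : K ≃ₐ[k] K) :
    Pol (T.a σ * fE D σ⁻¹) ∧ Pol (T.a σ * fE D σ⁻¹).symm := by
  have h1 := SP.comp (T.pol σ) (SP.of_map (fE_val (D := D) σ⁻¹))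
  have h2 := SP.comp (SP.of_map (fE_val (D := D) σ)) (T.pol σ⁻¹)
  rw [mul_inv_cancel] at h1 h2
  refine ⟨h1, ?_⟩
  rw [← MulAut.inv_def, _root_.mul_inv_rev, ← map_inv, ← map_inv, inv_inv]
  exact h2

/-- Normal forms; all data are locally constant. -/
theorem nf_of (aut : AUT) (hD : SC D) [Infinite K] [Algebra.IsAlgebraic k K]
    (T : Tw k (D.grp K)) : ∃ (g : _ → _) (c : _ → _) (π : _ → _),
      (∀ σ, Std (GG D K) (T.a σ) σ (g σ) (c σ) (π σ)) ∧
      (g 1 = 1 ∧ c 1 = 1 ∧ π 1 = 1) ∧ Near k fun τ => ∀ σ,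
        (g (σ * τ) = g σ ∧ c (σ * τ) = c σ ∧ π (σ * τ) = π σ) ∧
        (g (τ * σ) = g σ ∧ c (τ * σ) = c σ ∧ π (τ * σ) = π σ) := by
  have : ∀ ψ : MulAut (D.grp K), ∃ x : D.grp K × (Fin D.R.r → Kˣ) × Equiv.Perm (Fin D.R.r),
      (Pol ψ ∧ Pol ψ.symm → Std (GG D K) ψ id x.1 x.2.1 x.2.2) ∧ (ψ = 1 → x = 1) := fun ψ => by
    by_cases h : ψ = 1
    · exact ⟨1, fun _ => h ▸ std_id, fun _ => rfl⟩
    by_cases h' : Pol ψ ∧ Pol ψ.symm
    · obtain ⟨g, c, π, e⟩ := aut D hD K ψ h'.1 h'.2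
      exact ⟨(g, c, π), fun _ => e, fun e => absurd e h⟩
    · exact ⟨1, fun e => absurd e h', fun _ => rfl⟩
  choose x h1 h2 using this
  have h3 : x (T.a 1 * fE D (1 : K ≃ₐ[k] K)⁻¹) = 1 :=
    h2 _ (by rw [inv_one, map_one, map_one, mul_one])
  refine ⟨fun σ => (x (T.a σ * fE D σ⁻¹)).1, fun σ => (x (T.a σ * fE D σ⁻¹)).2.1,
    fun σ => (x (T.a σ * fE D σ⁻¹)).2.2, fun σ => ⟨(h1 _ (pol_lin T σ)).1, fun i u => ?_⟩,
    ⟨congrArg Prod.fst h3, congrArg (·.2.1) h3, congrArg (·.2.2) h3⟩,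
    (near_normal (near_fE T)).imp fun _ h => ⟨h.1, fun τ e σ => ?_⟩⟩
  · have := (h1 _ (pol_lin T σ)).2 i (σ u)
    rwa [MulAut.mul_apply, MulAut.mul_apply, fE_x σ⁻¹, fE_x σ⁻¹,
      show σ⁻¹ (σ u) = u from σ.symm_apply_apply u] at this
  · have k1 : ∀ τ, T.a τ = fE D τ → T.a (σ * τ) * fE D (σ * τ)⁻¹ = T.a σ * fE D σ⁻¹ := fun τ e => by
      rw [map_mul, e, mul_assoc, ← map_mul, _root_.mul_inv_rev, mul_inv_cancel_left]
    have k2 := k1 _ (h.2 τ e σ)
    have k3 := k1 τ (by simpa using h.2 τ e 1)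
    rw [show σ * (σ⁻¹ * τ * σ) = τ * σ by group] at k2
    simp only [k2, k3, and_self]

theorem nfx (aut : AUT) : NFX := fun k K _ _ _ _ _ D hD T => by
  haveI := Infinite.of_injective _ (algebraMap k K).injective
  obtain ⟨g, c, π, h1, h2, h3⟩ := nf_of aut hD T
  exact ⟨g, c, π, h1, h2.1, h3.imp fun _ h => ⟨h.1, fun τ e σ =>
    ⟨(h.2 τ e σ).1.1, (h.2 τ e σ).2.1⟩⟩⟩

theorem act_of (T : Tw k (D.grp K)) {g : _ → _} {c : _ → _} {π : _ → _}
    (h : ∀ σ, Std (GG D K) (T.a σ) σ (g σ) (c σ) (π σ)) (P : Subgroup (K ≃ₐ[k] K)) :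
    Act (GG D K) P T.a π ∧ PolA P T.a :=
  ⟨⟨fun σ _ τ _ => map_mul _ σ τ, (near_op (near_fE T) P).imp fun σ _ e γ _ t => e ▸ fE_x σ γ t,
    fun σ _ => ⟨g σ, trivial, c σ, _, (std_dia (σ := (σ : K →+* K))).1 (h σ), by
      rw [← mul_assoc, ← map_mul, mul_inv_cancel, map_one, one_mul]⟩⟩, fun σ _ => T.pol σ⟩

theorem eqa : EQA := fun k K _ _ _ _ _ _ _ _ _ h =>
  haveI := Infinite.of_injective _ (algebraMap k K).injective
  eqv_ani h

theorem eqt (aut : AUT) : EQT := fun k K _ _ _ _ _ D hD T T' ⟨ψ, h1, h2, h3⟩ ⟨σ, g, c, π, h4, h5⟩ => by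
  haveI := Infinite.of_injective _ (algebraMap k K).injective
  obtain ⟨g0, c0, π0, h6⟩ := aut D hD K ψ h1 h2
  have h7 := std_comp (σ := .id K) (ψ' := ψ.trans (T'.a σ)) (std_symm h6)
    (std_comp (σ := (σ : K →+* K)) (σ' := .id K) h4 h6)
  refine ⟨σ, _, _, _, (congrArg (Std _ · _ _ _ _) (funext fun x => ?_)).mp h7, fun e => h5 ?_⟩
  · rw [MulEquiv.trans_apply, h3, ψ.symm_apply_apply]
  · rw [show π * π = π0 * (π0⁻¹ * (π * π0) * (π0⁻¹ * (π * π0))) * π0⁻¹ by group, e]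
    group

end Vale.Agent.P011UC
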