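import Vale.Agent.P011UC.Defs2
import Vale.Agent.P011UJ.Eta

/-!
The differential of a semilinear action; rational functionals on the Lie algebra.
-/

set_option autoImplicit false
set_option linter.all false

namespace Vale.Agent.P011UC

open Matrix Finset Vale.Agent.P183CH Vale.Agent.P183CH.Chev Vale.Agent.P011U Vale.Agent.P011LD
  Vale.Agent.P011UP Polynomial

attribute [local instance 100] LieRing.ofAssociativeRing

/-- semilinear maps -/
structure Sm {K V W : Type} [Field K] [AddCommGroup V] [Module K V] [AddCommGroup W] [Module K W]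
    (σ : K → K) (f : V → W) : Prop where
  add : ∀ v w, f (v + w) = f v + f w
  smul : ∀ (c : K) v, f (c • v) = σ c • f v

section

variable {K U V W : Type} [Field K] [AddCommGroup U] [Module K U] [AddCommGroup V] [Module K V]
  [AddCommGroup W] [Module K W] {σ τ : K → K}

theorem Sm.comp {f : V → W} {g : U → V} (h : Sm σ f) (h' : Sm τ g) :
    Sm (fun c => σ (τ c)) fun v => f (g v) :=
  ⟨fun v w => by rw [h'.add, h.add], fun c v => by rw [h'.smul, h.smul]⟩

theorem Sm.lin (f : V →ₗ[K] W) : Sm (fun c : K => c) f := ⟨f.map_add, f.map_smul⟩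

theorem Sm.sum {f : V → W} (h : Sm σ f) {ι : Type} (s : Finset ι) (v : ι → V) :
    f (∑ i ∈ s, v i) = ∑ i ∈ s, f (v i) := map_sum (AddMonoidHom.mk' f h.add) v s

theorem Sm.ind {f : V → W} (h : Sm σ f) {s : Set V} (S : Submodule K W) (e : ∀ v ∈ s, f v ∈ S)
    {v : V} (hv : v ∈ Submodule.span K s) : f v ∈ S := by
  induction hv using Submodule.span_induction with
  | mem v hv => exact e v hv
  | zero => exact (congrArg (· ∈ S) (AddMonoidHom.mk' f h.add).map_zero).mpr S.zero_mem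
  | add v w _ _ h1 h2 => exact h.add v w ▸ S.add_mem h1 h2
  | smul c v _ h1 => exact h.smul c v ▸ S.smul_mem _ h1

theorem Sm.ext {f g : V → W} (h : Sm σ f) (h' : Sm σ g) {s : Set V} (e : ∀ v ∈ s, f v = g v)
    {v : V} (hv : v ∈ Submodule.span K s) : f v = g v :=
  sub_eq_zero.1 (Sm.ind (σ := σ) (f := fun v => f v - g v) ⟨fun v w => by
    rw [h.add, h'.add, add_sub_add_comm], fun c v => by rw [h.smul, h'.smul, smul_sub]⟩ ⊥
      (fun v hv => sub_eq_zero.2 (e v hv)) hv)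

end

variable {k K : Type} [Field k] [Field K] [Algebra k K] {D : Chev} {x : K → D.grp K}
  {M N : D.Mat K} {γ γ' : D.Q}

/-- tangent vectors of polynomial curves -/
def Tan (x : K → D.grp K) (M : D.Mat K) : Prop :=
  x 0 = 1 ∧ ∀ i j, ∃ p : K[X], (∀ t, (x t).1.1 i j = p.eval t) ∧ M i j = p.coeff 1

theorem Tan.uniq [Infinite K] (h : Tan x M) (h' : Tan x N) : M = N := Matrix.ext fun i j => by
  obtain ⟨p, h1, h2⟩ := h.2 i j
  obtain ⟨q, h3, h4⟩ := h'.2 i j
  rw [h2, h4, Polynomial.funext fun t => (h1 t).symm.trans (h3 t)]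

theorem Tan.conj (h : Tan x M) (g : D.grp K) : Tan (fun t => g * x t * g⁻¹) (Ad g.1 M) :=
  ⟨by simp [h.1], fun i j => by
    choose p h1 h2 using h.2
    refine ⟨∑ b, (∑ a, C (g.1.1 i a) * p a b) * C (g⁻¹.1.1 b j), fun t => ?_, ?_⟩
    · simp [mul_apply, h1, eval_finset_sum]
    · simp [Ad_apply, mul_apply, h2, sum_mul]⟩

theorem tan_x (h : γ ∈ D.R.Φ) (c : K) : Tan (fun t => (GG D K).x γ (c * t)) (c • ee D K γ) :=
  ⟨by simp [GG_ok.x_zero h], fun i j =>
    ⟨∑ m ∈ range (D.n + 2), monomial m (c ^ m * ct K (D.EE γ m) i j), fun t => by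
      simp [x_val h, Matrix.sum_apply, eval_finset_sum, mul_pow, mul_comm, mul_assoc, mul_left_comm],
      by simp [coeff_monomial]⟩⟩

theorem tan_x' (h : γ ∈ D.R.Φ) : Tan ((GG D K).x γ) (ee D K γ) := by simpa using tan_x h (1 : K)

theorem exists_dif {σ : K ≃ₐ[k] K} {ψ : MulAut (D.grp K)} (h : SP σ ψ) :
    ∃ A : D.Mat K → D.Mat K, Sm σ A ∧ ∀ x M, Tan x M → Tan (fun t => ψ (x (σ⁻¹ t))) (A M) := by
  choose p hp using h
  refine ⟨fun M => of fun i j => ∑ e, MvPolynomial.eval (fun e => (1 : D.Mat K) e.1 e.2)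
    (MvPolynomial.pderiv e (p i j)) * σ (M e.1 e.2), ⟨fun v w => Matrix.ext fun i j => by
      simp [mul_add, sum_add_distrib], fun c v => Matrix.ext fun i j => by
      simp [mul_sum, mul_left_comm]⟩, fun x M hx => ⟨by simp [hx.1], fun i j => ?_⟩⟩
  choose q h1 h2 using hx.2
  have e : ∀ (r : MvPolynomial _ K) t, (MvPolynomial.aeval (fun e : Fin D.n × Fin D.n =>
      (q e.1 e.2).map (σ : K →+* K)) r).eval t =
        MvPolynomial.eval (fun e => σ ((x (σ⁻¹ t)).1.1 e.1 e.2)) r := fun r t => by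
    rw [← coe_aeval_eq_eval, ← AlgHom.comp_apply, MvPolynomial.comp_aeval,
      ← MvPolynomial.coe_aeval_eq_eval]
    refine congrArg (fun w => MvPolynomial.aeval w r) (funext fun e => ?_)
    rw [h1, coe_aeval_eq_eval]
    exact (congrArg (eval · _) (σ.apply_symm_apply t).symm).trans
      (eval_map_apply (σ : K →+* K) (σ.symm t))
  refine ⟨_, fun t => (hp i j _).trans (e _ t).symm, ?_⟩
  have := congrArg (Polynomial.eval 0) (P011UJ.der_aeval Polynomial.derivative'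
    (fun e : Fin D.n × Fin D.n => (q e.1 e.2).map (σ : K →+* K)) (p i j))
  simp only [derivative'_apply, eval_finset_sum, smul_eq_mul, eval_mul, e, map_zero, hx.1] at this
  simp only [← coeff_zero_eq_eval_zero, coeff_derivative, coeff_map, ← h2] at this
  simpa [map_intCast, one_apply] using this.symm

/-- the span of the tangent vectors -/
def TV (D : Chev) (K : Type) [Field K] : Submodule K (D.Mat K) :=
  Submodule.span K {M | ∃ x, Tan x M}

theorem ee_TV (h : γ ∈ D.R.Φ) (g : D.grp K) : Ad g.1 (ee D K γ) ∈ TV D K :=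
  Submodule.subset_span ⟨_, (tan_x' h).conj g⟩

theorem ad_sum (h : γ ∈ D.R.Φ) (t : K) (Y : D.Mat ℤ) : Ad ((GG D K).x γ t).1 (ct K Y) =
    ∑ m ∈ range (D.n + D.n + 2), t ^ m • ct K (adp (D.EE γ) Y m) := by
  rw [GG_x (mem_Φ.1 h), ad_exU]
  refine sum_subset (range_mono (Nat.le_add_right _ _)) fun m _ hm => ?_
  rw [adp, sum_eq_zero fun a ha => ?_, map_zero, smul_zero]
  rw [mem_range] at hm ha
  by_cases e : D.n ≤ a
  · rw [(mem_Φ.1 h).rh.dp.van e, zero_mul, zero_mul, smul_zero]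
  · rw [(mem_Φ.1 h).rh.dp.van (m := m - a) (by omega), mul_zero, smul_zero]

theorem hm_eq (i : Fin D.r) : adp (D.EE (D.R.α i)) (D.EE (-D.R.α i) 1) 1 = D.hm i := by
  rw [adp_one (mem_Φ.1 ((R_ok D).simple i)).rh.dp]
  exact (congrArg₂ (fun E F : ℕ → D.Mat ℤ => ⁅E 1, F 1⁆) (EE_e i) (EE_f i)).trans (ef i)

theorem lie_TV [Infinite K] {J : Set (Fin D.R.r)} : lie D K J ≤ TV D K := Submodule.span_le.2 (by
  rintro _ (⟨γ, h, -, rfl⟩ | ⟨i, rfl⟩)
  · exact Submodule.subset_span ⟨_, tan_x' h⟩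
  · have h := (R_ok D).simple i
    rw [← hm_eq i]
    refine coef_mem _ (D.n + D.n + 2) (fun m => ct K (adp _ (D.EE (-D.R.α i) 1) m)) (fun t => ?_)
      (m := 1) (by omega)
    rw [← ad_sum h]
    exact ee_TV ((R_ok D).neg_mem h) _)

section

variable [Infinite K] {σ : K ≃ₐ[k] K} {ψ : MulAut (D.grp K)} {A : D.Mat K → D.Mat K} (h : Sm σ A)
  (h' : ∀ x M, Tan x M → Tan (fun t => ψ (x (σ⁻¹ t))) (A M)) {g : D.grp K} {d d' : K}
include h h'

theorem dif_ad (g : D.grp K) (hM : M ∈ TV D K) : A (Ad g.1 M) = Ad (ψ g).1 (A M) :=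
  (h.comp (.lin (Ad g.1))).ext ((Sm.lin (Ad (ψ g).1)).comp h) (fun M hx => hx.elim fun x hx =>
    (h' _ _ (hx.conj g)).uniq (by simpa only [map_mul, map_inv] using (h' _ _ hx).conj (ψ g))) hM

omit h in
theorem dif_ee (a : γ ∈ D.R.Φ) (a' : γ' ∈ D.R.Φ)
    (e : ∀ u, ψ ((GG D K).x γ u) = g * (GG D K).x γ' (d * σ u) * g⁻¹) :
    A (ee D K γ) = d • Ad g.1 (ee D K γ') := by
  have := h' _ _ (tan_x' a)
  simp only [e, show ∀ t, σ (σ⁻¹ t) = t from σ.apply_symm_apply] at this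
  exact (this.uniq ((tan_x a' d).conj g)).trans (map_smul _ _ _)

theorem dif_hm {i j : Fin D.r}
    (e : ∀ u, ψ ((GG D K).x (D.R.α i) u) = g * (GG D K).x (D.R.α j) (d * σ u) * g⁻¹)
    (e' : ∀ u, ψ ((GG D K).x (-D.R.α i) u) = g * (GG D K).x (-D.R.α j) (d' * σ u) * g⁻¹) :
    A (ct K (D.hm i)) = (d' * d) • Ad g.1 (ct K (D.hm j)) := by
  have r := R_ok D
  have := coef_eq (F := K) (D.n + D.n + 2)
    (fun m => A (ct K (adp (D.EE (D.R.α i)) (D.EE (-D.R.α i) 1) m)))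
    (fun m => (d' * d ^ m) • Ad g.1 (ct K (adp (D.EE (D.R.α j)) (D.EE (-D.R.α j) 1) m)))
    (fun t => ?_) (m := 1) (by omega)
  · simpa only [hm_eq, pow_one] using this
  have h1 := dif_ad h h' ((GG D K).x (D.R.α i) (σ⁻¹ t))
    (Submodule.subset_span ⟨_, tan_x' (r.neg_mem (r.simple i))⟩)
  rw [ad_sum (r.simple i), h.sum, dif_ee h' (r.neg_mem (r.simple i)) (r.neg_mem (r.simple j)) e', e,
    map_smul, ← Ad_mul, ← Subgroup.coe_mul, inv_mul_cancel_right, Subgroup.coe_mul, Ad_mul,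
    ad_sum (r.simple j), map_sum, smul_sum] at h1
  simp only [h.smul, map_pow, show σ (σ⁻¹ t) = t from σ.apply_symm_apply t, map_smul,
    smul_smul] at h1
  rw [h1]
  exact sum_congr rfl fun m _ => by rw [smul_smul, mul_pow, ← mul_assoc, mul_comm]

end

theorem rat : RAT := by
  intro D k K _ _ _ _ _ _ P a π J _ act pol st via ι _ b q hb hW hq
  haveI := Infinite.of_injective _ (algebraMap k K).injective
  have r := R_ok D
  choose! A h1 h2 using fun σ (s : σ ∈ P) => exists_dif (σ := σ) (ψ := a σ) (pol σ s)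
  have std : ∀ {σ : K ≃ₐ[k] K} {g c δ}, Dia (GG D K) (σ : K →+* K) (π σ) c δ → a σ = MulAut.conj g * δ →
      Std (GG D K) (a σ) σ g c (π σ) := fun {σ g c δ} e e' =>
    (std_dia (σ := (σ : K →+* K))).2 (by rwa [e', ← mul_assoc, ← map_mul, inv_mul_cancel, map_one,
      one_mul])
  have h3 : ∀ σ ∈ P, ∀ M ∈ lie D K J, A σ M ∈ lie D K J := fun σ s M m => by
    obtain ⟨g, hg, c, δ, e, e'⟩ := via σ s
    have e := std e e'
    refine (h1 σ s).ind _ ?_ m
    rintro _ (⟨γ, h, j, rfl⟩ | ⟨i, rfl⟩)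
    · obtain ⟨d, hd⟩ := std_x GG_ok e r γ h
      rw [dif_ee (h2 σ s) h (pm_mem r e.1 γ h) fun u => (hd u).1]
      exact Submodule.smul_mem _ _ (lie_ok D K J GG_ok g hg _
        (lie_e (mem_Φ.1 (pm_mem r e.1 γ h)) (pm_In (st σ s) j)))
    · rw [dif_hm (h1 σ s) (h2 σ s) (fun u => (e.2 i u).1) fun u => (e.2 i u).2]
      exact Submodule.smul_mem _ _ (lie_ok D K J GG_ok g hg _ (lie_h _))
  classical
  let B : (K ≃ₐ[k] K) → lie D K J → lie D K J := fun σ M =>
    if s : σ ∈ P then ⟨A σ M, h3 σ s _ M.2⟩ else M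
  have hB : ∀ σ ∈ P, ∀ M, (B σ M).1 = A σ M := fun σ s M => by simp only [B, dif_pos s]
  have sl : Sl P B := ⟨fun σ s v w => Subtype.ext (by simp only [hB σ s, Submodule.coe_add,
      (h1 σ s).add]), fun σ s c v => Subtype.ext (by simp only [hB σ s, Submodule.coe_smul,
      (h1 σ s).smul]), fun σ s τ t v => Subtype.ext ?_, fun ⟨M, m⟩ => ?_⟩
  rotate_left
  · rw [hB _ (mul_mem s t), hB σ s, hB τ t]
    refine (h1 _ (mul_mem s t)).ext ((h1 σ s).comp (h1 τ t)) (fun M ⟨x, hx⟩ =>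
      (h2 _ (mul_mem s t) _ _ hx).uniq ?_) (s := {M | ∃ x, Tan x M}) (lie_TV v.2)
    simpa only [act.mul σ s τ t, _root_.mul_inv_rev, AlgEquiv.mul_apply, MulAut.mul_apply] using
      h2 σ s _ _ (h2 τ t _ _ hx)
  · suffices Op P fun σ => A σ M = M from
      this.imp fun σ s e => Subtype.ext ((hB σ s _).trans e)
    induction m using Submodule.span_induction with
    | mem M m =>
      refine act.cont.imp fun σ s e => ?_
      have e : ∀ γ ∈ D.R.Φ, ∀ u, a σ ((GG D K).x γ u) = 1 * (GG D K).x γ (1 * σ u) * 1⁻¹ := by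
        simpa using e
      obtain ⟨γ, h, -, rfl⟩ | ⟨i, rfl⟩ := m
      · simpa [Ad_apply] using dif_ee (h2 σ s) h h (e γ h)
      · simpa [Ad_apply] using dif_hm (h1 σ s) (h2 σ s) (e _ (r.simple i))
          (e _ (r.neg_mem (r.simple i)))
    | zero => exact ⟨∅, fun σ s _ => (AddMonoidHom.mk' _ (h1 σ s).add).map_zero⟩
    | add v w _ _ e e' => exact (e.and e').imp fun σ s e => by rw [(h1 σ s).add, e.1, e.2]
    | smul c v _ e =>
      exact (e.and (Op.fix P c)).imp fun σ s e => by rw [(h1 σ s).smul, e.1, e.2]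
  obtain ⟨β, hβ⟩ := sl.basis (Fintype.card_fin _)
  have dn : Dn k K {x : Module.Dual K (D.Mat K) | ∀ σ ∈ P, ∀ M ∈ lie D K J, x (A σ M) = σ (x M)} :=
    ⟨fun σ _ _ _ => by simp, fun x e y e' σ s M m => by simp [e σ s M m, e' σ s M m],
      fun t x e σ s M m => by simp [e σ s M m], eq_top_iff.2 fun x _ => ?_⟩
  rotate_left
  · choose y hy using fun i => LinearMap.exists_extend (β.coord i)
    have hy : ∀ i (M : lie D K J), y i M = β.repr M i := fun i M => LinearMap.congr_fun (hy i) M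
    have e : ∀ M ∈ lie D K J, (x - ∑ i, x (β i) • y i) M = 0 := fun M m => by
      have := congrArg (fun M : lie D K J => x M) (β.sum_repr ⟨M, m⟩)
      simp only [Submodule.coe_sum, Submodule.coe_smul, map_sum, map_smul, smul_eq_mul] at this
      simp [← this, hy _ ⟨M, m⟩, mul_comm]
    rw [← sub_add_cancel x (∑ i, x (β i) • y i)]
    refine add_mem (Submodule.subset_span fun σ s M m => ?_) (sum_mem fun i _ =>
      Submodule.smul_mem _ _ (Submodule.subset_span fun σ s M m => ?_))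
    · rw [e _ m, e _ (h3 σ s M m), map_zero]
    · rw [← hB σ s ⟨M, m⟩, hy, hy _ ⟨M, m⟩]
      conv_lhs => rw [← β.sum_repr ⟨M, m⟩, sl.sum s]
      simp only [sl.smul σ s, hβ _ σ s, β.repr_sum_self]
  obtain ⟨x, hx, e⟩ := dn.den (LP.mv q fun i => LP.lin (Module.Dual.eval K _ (b i))) (by
    obtain ⟨y, hy⟩ : ∃ y, MvPolynomial.eval y q ≠ 0 :=
      not_forall.1 fun e => hq (MvPolynomial.funext fun y => (e y).trans (map_zero _).symm)
    obtain ⟨x, hx⟩ := LinearMap.exists_extend ((Finsupp.linearCombination K y).comp hb.repr)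
    refine ⟨x, fun e => hy (Eq.trans (congrArg (MvPolynomial.eval · q) (funext fun i => ?_)) e)⟩
    have := LinearMap.congr_fun hx ⟨b i, Submodule.subset_span ⟨i, rfl⟩⟩
    simpa [hb.repr_eq_single i ⟨b i, _⟩ rfl] using this.symm)
  refine ⟨x, e, fun σ s g c δ e e' u hu hz γ' h' j' => ?_⟩
  have e := std e e'
  have h : pm (π σ)⁻¹ γ' ∈ D.R.Φ := pm_mem r (fun i j => by
    simpa using (e.1 ((π σ)⁻¹ i) ((π σ)⁻¹ j)).symm) _ h'
  have j : D.R.In J (pm (π σ)⁻¹ γ') := pm_In (fun i => by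
    simpa using (st σ s ((π σ)⁻¹ i)).symm) j'
  obtain ⟨d, hd⟩ := std_x GG_ok e r _ h
  rw [show pm (π σ) (pm (π σ)⁻¹ γ') = γ' from funext fun i => by
    simp [pm, Equiv.Perm.inv_def]] at hd
  have := hx σ s _ (lie_ok D K J GG_ok u hu _ (lie_e (mem_Φ.1 h) j))
  rw [show x (Ad u.1 _) = 0 from hz _ h j, dif_ad (h1 σ s) (h2 σ s) u (lie_TV (lie_e (mem_Φ.1 h) j)),
    dif_ee (h2 σ s) h h' fun u => (hd u).1, map_smul, map_smul, map_zero, ← Ad_mul] at this
  exact (smul_eq_zero.1 this).resolve_left d.ne_zero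

theorem via_GJ {σ : K ≃ₐ[k] K} {π : Equiv.Perm (Fin D.R.r)} {c δ}
    {J : Set (Fin D.R.r)} (e : Dia (GG D K) (σ : K →+* K) π c δ) (st : ∀ i, π i ∈ J ↔ i ∈ J)
    {u : D.grp K} (hu : u ∈ (GG D K).GJ J) : δ u ∈ (GG D K).GJ J := by
  have e : Std (GG D K) δ σ 1 c π := (std_dia (σ := (σ : K →+* K))).2 (by simpa using e)
  refine (sup_le (fun v hv => ?_) (fun v hv => ?_) : _ ≤ ((GG D K).GJ J).comap δ.toMonoidHom) hu
  · exact Subgroup.mem_sup_left (by
      simpa using std_X GG_ok e (R_ok D) (S' := {γ | D.R.In J γ}) (fun γ j _ => pm_In st j) hv)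
  · exact Subgroup.mem_sup_right (by simpa using std_T GG_ok e hv)

theorem apt0 (trp : TRP) (gen : GEN) : APT0 := by
  intro D k K _ _ _ _ _ _ P a π J o act pol st via hD f hf
  haveI := Infinite.of_injective _ (algebraMap k K).injective
  obtain ⟨ι, _, b, q, h1, h2, h3, h4⟩ := gen D hD K J f hf
  obtain ⟨x, h5, h6⟩ := rat D k K P a π J o act pol st via ι b q h1 h2 h3
  obtain ⟨u, hu, ψ, h7, h8, h9⟩ := h4 x h5
  refine ⟨u, hu, h7, fun σ s => ?_⟩
  obtain ⟨g, hg, c, δ, e, e'⟩ := via σ s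
  have m : a σ u⁻¹ * g ∈ (GG D K).GJ J := by
    rw [e', MulAut.mul_apply, MulAut.conj_apply, inv_mul_cancel_right]
    exact mul_mem hg (via_GJ e (st σ s) (inv_mem hu))
  have l : ∀ g ∈ (GG D K).GJ J, ∀ γ ∈ D.R.Φ, D.R.In J γ → x (Ad g.1 (ee D K γ)) =
      ψ (Ad (u * g).1 (ee D K γ)) := fun g hg γ h j =>
    (h9 _ (lie_ok D K J o g hg _ (lie_e (mem_Φ.1 h) j))).trans (congrArg ψ (Ad_mul _ _ _).symm)
  refine ⟨u * (a σ u⁻¹ * g), trp D K J ψ h8 _ (mul_mem hu m) fun γ h j => (l _ m γ h j).symm.trans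
    (h6 σ s g c δ e e' _ (inv_mem hu) (fun γ h j => ?_) γ h j), c, δ, e, MulEquiv.ext fun y => ?_⟩
  · refine (l _ (inv_mem hu) γ h j).trans ?_
    simpa [Ad_apply] using h8.1 γ h j
  · simp [tw, e', mul_assoc]

end Vale.Agent.P011UC
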