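import Vale.Agent.P011UC.Lie
import Vale.Agent.P011UC.Tr
import Vale.Agent.P011UA.A0
import Vale.Agent.P011UP.Std

/-!
Stable apartments and density through the coadjoint representation: the statements.
-/

set_option autoImplicit false
set_option linter.all false

namespace Vale.Agent.P011UC

open Matrix Finset Vale.Agent.P183CH Vale.Agent.P183CH.Chev Vale.Agent.P011U

attribute [local instance 100] LieRing.ofAssociativeRing

/-- the root vectors -/
noncomputable abbrev ee (D : Chev) (K : Type) [Field K] (γ : D.Q) : D.Mat K := ct K (D.EE γ 1)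

section

variable {D : Chev} {K : Type} [Field K] (J : Set (Fin D.R.r))

/-- the functional vanishes on the root vectors -/
def Zer (ψ : D.Mat K → K) : Prop := ∀ γ ∈ D.R.Φ, D.R.In J γ → ψ (ee D K γ) = 0

/-- regular functionals of weight zero -/
def Reg (ψ : Module.Dual K (D.Mat K)) : Prop :=
  Zer J ψ ∧ ∀ γ ∈ D.R.Φ, D.R.In J γ → ψ ⁅ee D K γ, ee D K (-γ)⁆ ≠ 0

/-- the root elements of the Levi subgroup and the unit element -/
def Gn (g : D.grp K) : Prop := g = 1 ∨ ∃ γ ∈ D.R.Φ, D.R.In J γ ∧ ∃ s, g = (GG D K).x γ s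

end

/-- TRP: the transporter of regular functionals. -/
def TRP : Prop := ∀ (D : Chev) (K : Type) [Field K] [Infinite K] (J : Set (Fin D.R.r))
  (ψ : Module.Dual K (D.Mat K)), Reg J ψ → ∀ g ∈ (GG D K).GJ J,
    (Zer J fun M => ψ (Ad g.1 M)) → g ∈ (GG D K).NJ J

/-- GEN: generic functionals are conjugate to regular functionals of weight zero. -/
def GEN : Prop := ∀ (D : Chev), SC D → ∀ (K : Type) [Field K] [IsSepClosed K]
  (J : Set (Fin D.R.r)) (f : MvPolynomial (Fin D.n × Fin D.n) K), (∃ g, Gn J g ∧ ev g f ≠ 0) →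
    ∃ (ι : Type) (_ : Fintype ι) (b : ι → D.Mat K) (q : MvPolynomial ι K),
      LinearIndependent K b ∧ (∀ i, b i ∈ lie D K J) ∧ q ≠ 0 ∧
      ∀ x : Module.Dual K (D.Mat K), MvPolynomial.eval (fun i => x (b i)) q ≠ 0 →
        ∃ u ∈ (GG D K).GJ J, ∃ ψ, ev u f ≠ 0 ∧ Reg J ψ ∧ ∀ M ∈ lie D K J, x M = ψ (Ad u.1 M)

/-- RAT: the rational functionals are dense. -/
def RAT : Prop := Fc fun D {_ K} _ _ _ P a π J => ∀ (ι : Type) [Fintype ι] (b : ι → D.Mat K)
  (q : MvPolynomial ι K), LinearIndependent K b → (∀ i, b i ∈ lie D K J) → q ≠ 0 →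
    ∃ x : Module.Dual K (D.Mat K), MvPolynomial.eval (fun i => x (b i)) q ≠ 0 ∧
      ∀ σ ∈ P, ∀ g c δ, Dia (GG D K) (σ : K →+* K) (π σ) c δ → a σ = MulAut.conj g * δ →
        ∀ u ∈ (GG D K).GJ J, (Zer J fun M => x (Ad u.1 M)) → Zer J fun M => x (Ad (a σ u * g).1 M)

/-- APT0: stable apartments in general position. -/
def APT0 : Prop := Fc fun D {_ K} _ _ _ P a π J => SC D → ∀ f, (∃ g, Gn J g ∧ ev g f ≠ 0) →
  ∃ u ∈ (GG D K).GJ J, ev u f ≠ 0 ∧ Via (GG D K) P (tw a (MulAut.conj u⁻¹)) π ((GG D K).NJ J)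

/-- DENJ: the fixed points are Zariski dense (in every stable Levi subgroup). -/
def DENJ : Prop := Fc fun D {_ K} _ _ _ P a _ J => SC D → ∀ f,
  (∃ g ∈ (GG D K).GJ J, ev g f ≠ 0) → ∃ g ∈ (GG D K).GJ J, g ∈ Fix P a ∧ ev g f ≠ 0

/-- APTJ: generic stable apartments (in every stable Levi subgroup). -/
def APTJ : Prop := Fc fun D {_ K} _ _ _ P a π J => SC D → ∀ f,
  (∃ g ∈ (GG D K).GJ J, ev g f ≠ 0) →
    ∃ g ∈ (GG D K).GJ J, ev g f ≠ 0 ∧ Via (GG D K) P (tw a (MulAut.conj g)) π ((GG D K).NJ J)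

variable {D : Chev} {K : Type} [Field K] {γ δ : D.Q}

theorem ex_eq2 {n : ℕ} {k : Type} [CommRing k] {E : ℕ → Matrix (Fin n) (Fin n) ℤ} (h : DP E)
    (t : k) : ex E t = ∑ m ∈ range (n + 2), t ^ m • ct k (E m) :=
  sum_subset (range_mono (Nat.le_add_right _ _)) fun m _ hm => by
    rw [h.van (by simpa using hm)]; simp

theorem coef_eq {F V : Type} [Field F] [Infinite F] [AddCommGroup V] [Module F V] (N : ℕ)
    (v w : ℕ → V) (h : ∀ t : F, ∑ m ∈ range N, t ^ m • v m = ∑ m ∈ range N, t ^ m • w m) {m : ℕ}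
    (hm : m < N) : v m = w m :=
  sub_eq_zero.1 (coef_mem (F := F) ⊥ N (fun m => v m - w m) (fun t => by
    simp only [smul_sub, sum_sub_distrib, h, sub_self, Submodule.zero_mem]) hm)

theorem x_val (h : γ ∈ D.R.Φ) (t : K) :
    ((GG D K).x γ t).1.1 = ∑ m ∈ range (D.n + 2), t ^ m • ct K (D.EE γ m) :=
  (congrArg Units.val (GG_x (mem_Φ.1 h) t)).trans (ex_eq2 (mem_Φ.1 h).rh.dp t)

theorem ad_ee [Infinite K] (h : γ ∈ D.R.Φ) (h' : δ ∈ D.R.Φ) {g : D.grp K} {c : K}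
    (e : ∀ t, g * (GG D K).x γ t * g⁻¹ = (GG D K).x δ (c * t)) :
    Ad g.1 (ee D K γ) = c • ee D K δ := by
  simpa using coef_eq (F := K) (D.n + 2) (fun m => Ad g.1 (ct K (D.EE γ m)))
    (fun m => c ^ m • ct K (D.EE δ m)) (fun t => by
      simp only [← map_smul, ← map_sum, smul_smul, ← mul_pow, ← x_val h, ← x_val h', mul_comm t, ← e]
      rfl) (m := 1) (by omega)

end Vale.Agent.P011UC
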