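import Vale.Agent.P011UC.Defs
import Vale.Agent.P011US.Sub

/-!
The Lie algebra of a Levi subgroup is stable under the adjoint action.
-/

set_option autoImplicit false
set_option linter.all false

namespace Vale.Agent.P011UC

open Matrix Finset Vale.Agent.P183CH Vale.Agent.P183CH.Chev Vale.Agent.P011U

attribute [local instance 100] LieRing.ofAssociativeRing

theorem coef_mem {F V : Type} [Field F] [Infinite F] [AddCommGroup V] [Module F V]
    (W : Submodule F V) (N : ℕ) (v : ℕ → V) (h : ∀ t : F, ∑ m ∈ range N, t ^ m • v m ∈ W) {m : ℕ}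
    (hm : m < N) : v m ∈ W := by
  by_contra hn
  obtain ⟨φ, h1, h2⟩ := W.exists_dual_map_eq_bot_of_notMem hn inferInstance
  have e : ∑ m ∈ range N, Polynomial.monomial m (φ (v m)) = 0 := Polynomial.funext fun t => by
    have : φ _ ∈ W.map φ := Submodule.mem_map_of_mem (h t)
    rw [h2, Submodule.mem_bot, map_sum] at this
    simpa [Polynomial.eval_finset_sum, mul_comm] using this
  have := congrArg (Polynomial.coeff · m) e
  simp [Polynomial.coeff_monomial, hm] at this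
  exact h1 this

section
variable {n : ℕ} {E : ℕ → Matrix (Fin n) (Fin n) ℤ}

/-- the divided powers of the adjoint action -/
def adp (E : ℕ → Matrix (Fin n) (Fin n) ℤ) (Y : Matrix (Fin n) (Fin n) ℤ) (m : ℕ) :
    Matrix (Fin n) (Fin n) ℤ :=
  ∑ a ∈ range (m + 1), (-1 : ℤ) ^ (m - a) • (E a * Y * E (m - a))

theorem adp_zero (h : DP E) (Y : Matrix (Fin n) (Fin n) ℤ) : adp E Y 0 = Y := by
  simp [adp, h.zero]

theorem adp_one (h : DP E) (Y : Matrix (Fin n) (Fin n) ℤ) : adp E Y 1 = ⁅E 1, Y⁆ := by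
  simp [adp, h.zero, sum_range_succ, Ring.lie_def, sub_eq_neg_add]

theorem ad_exU {k : Type} [CommRing k] (h : DP E) (t : k) (Y : Matrix (Fin n) (Fin n) ℤ) :
    Ad (h.exU t) (ct k Y) = ∑ m ∈ range (n + n), t ^ m • ct k (adp E Y m) := by
  have e : ∀ m ∈ range (n + n), t ^ m • ct k (adp E Y m) = ∑ a ∈ range (m + 1),
      t ^ a • ct k (E a) * ct k Y * (-t) ^ (m - a) • ct k (E (m - a)) := fun m _ => by
    rw [adp, map_sum, smul_sum]
    refine sum_congr rfl fun a ha => ?_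
    rw [smul_mul_assoc, smul_mul_smul_comm, map_zsmul, map_mul, map_mul,
      ← Int.cast_smul_eq_zsmul k, smul_smul, neg_pow t, mul_left_comm, ← pow_add,
      Nat.add_sub_of_le (mem_range_succ_iff.1 ha), mul_comm]
    simp
  rw [sum_congr rfl e, sum_range_diag_flip (n + n) fun a b =>
    t ^ a • ct k (E a) * ct k Y * (-t) ^ b • ct k (E b), Ad_apply]
  show ex E t * _ * ex E (-t) = _
  rw [ex, ex, sum_mul, sum_mul_sum]
  refine (sum_congr rfl fun a ha => sum_subset (range_mono ?_) fun b _ hb => ?_).trans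
    (sum_subset (range_mono (Nat.le_add_left _ _)) fun a _ ha => ?_)
  · rw [mem_range] at ha; omega
  · rw [h.van (m := b) (by simpa using hb)]; simp
  · rw [h.van (m := a) (by simpa using ha)]; simp

end

variable {D : Chev} {K : Type} [Field K] {J : Set (Fin D.R.r)} {γ δ : D.Q} {E : ℕ → D.Mat ℤ}
  {Y : D.Mat ℤ}

theorem lie_e (h : D.IsRt γ) (hJ : D.R.In J γ) : ct K (D.EE γ 1) ∈ lie D K J :=
  Submodule.subset_span (Or.inl ⟨γ, mem_Φ.2 h, hJ, rfl⟩)

theorem lie_h (i : Fin D.r) : ct K (D.hm i) ∈ lie D K J := Submodule.subset_span (Or.inr ⟨i, rfl⟩)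

theorem hm_g (i : Fin D.r) : ct ℂ (D.hm i) ∈ D.g := ⟨_, φ_h i⟩

/-- integer elements of the root spaces -/
theorem lie_int (h0 : γ ≠ 0) (hJ : D.R.In J γ) (hg : ct ℂ Y ∈ D.g) (hd : ct ℂ Y ∈ D.Dg ℂ γ) :
    ct K Y ∈ lie D K J := by
  by_cases e : ct ℂ Y = 0
  · rw [show Y = 0 from ct_inj (k := ℂ) (e.trans (map_zero _).symm), map_zero]
    exact zero_mem _
  have r : D.IsRt γ := ⟨h0, _, hg, e, hd⟩
  obtain ⟨c, hc⟩ := r.rh.one _ hg hd
  obtain ⟨z, rfl⟩ := r.rh.prim.int hc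
  rw [map_zsmul]
  exact zsmul_mem (lie_e r hJ) z

theorem ad_mem (h : D.RH δ E) (hJ : D.R.In J δ) (hγ : D.R.In J γ) (hg : ct ℂ Y ∈ D.g)
    (hd : Y ∈ D.Dg ℤ γ) (h0 : ∀ m : ℕ, γ + (m : ℤ) • δ = 0 → ct K (adp E Y m) ∈ lie D K J) (t : K) :
    Ad (h.dp.exU t) (ct K Y) ∈ lie D K J := by
  rw [ad_exU]
  refine sum_mem fun m hm => Submodule.smul_mem _ _ ?_
  by_cases e : γ + (m : ℤ) • δ = 0
  · exact h0 m e
  refine lie_int e (fun i hi => by simp [hJ i hi, hγ i hi]) (coef_mem _ _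
    (fun m => ct ℂ (adp E Y m)) (fun t => ad_exU h.dp t Y ▸ Ad_g h.dp h.g t hg) (mem_range.1 hm)) ?_
  rw [adp, map_sum]
  refine sum_mem fun a ha => ?_
  rw [map_zsmul, map_mul, map_mul]
  refine zsmul_mem ?_ _
  have := Dg.mul (Dg.mul (DP_dg (k := ℂ) h.dp h.dg a) (Dg.ct hd)) (DP_dg h.dp h.dg (m - a))
  rwa [Nat.cast_sub (mem_range_succ_iff.1 ha), sub_smul, add_comm _ γ, add_assoc,
    add_sub_cancel] at this

theorem ad_x (r : D.IsRt δ) (hJ : D.R.In J δ)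
    (h1 : ∀ m : ℤ, D.IsRt (m • δ) → m = 1 ∨ m = -1)
    (h2 : ct K ⁅D.EE δ 1, D.EE (-δ) 1⁆ ∈ lie D K J) (t : K) :
    ∀ M ∈ lie D K J, Ad ((GG D K).x δ t).1 M ∈ lie D K J := by
  rw [GG_x r]
  refine (Submodule.span_le (p := (lie D K J).comap (Ad (r.rh.dp.exU t)))).2 ?_
  rintro _ (⟨γ, hγ, j, rfl⟩ | ⟨i, rfl⟩)
  · have q := mem_Φ.1 hγ
    refine ad_mem r.rh hJ j q.rh.g q.rh.dg (fun m e => ?_) t
    obtain rfl : γ = -(m : ℤ) • δ := by rw [neg_smul]; exact eq_neg_of_add_eq_zero_left e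
    obtain rfl : m = 1 := by have := h1 _ q; omega
    rw [adp_one r.rh.dp]
    simpa using h2
  · refine ad_mem (γ := 0) r.rh hJ (fun _ _ => rfl) (hm_g i) (dg_h i) (fun m e => ?_) t
    obtain rfl : m = 0 :=
      Nat.cast_eq_zero.1 ((smul_eq_zero.1 ((zero_add _).symm.trans e)).resolve_right r.1)
    rw [adp_zero r.rh.dp]
    exact lie_h i

theorem ad_dg (i : Fin D.r) (s : Kˣ) {M : D.Mat K} (h : M ∈ D.Dg K γ) :
    Ad (dgU (D.μ i) s) M = ((s ^ (γ ᵥ* D.A) i : Kˣ) : K) • M := by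
  ext a b
  show (diagonal _ * M * diagonal _ : D.Mat K) a b = _
  rw [mul_diagonal, diagonal_mul, Matrix.smul_apply, smul_eq_mul]
  by_cases e : M a b = 0
  · simp [e]
  rw [show D.μ i a = D.μ i b + (γ ᵥ* D.A) i from congrFun (h a b e) i, zpow_add, Units.val_mul,
    mul_assoc ((s ^ D.μ i b : Kˣ) : K), mul_right_comm, Units.mul_inv, one_mul]

theorem ad_h (i : Fin D.r) (s : Kˣ) :
    ∀ M ∈ lie D K J, Ad ((GG D K).h i s).1 M ∈ lie D K J := by
  refine (Submodule.span_le (p := (lie D K J).comap (Ad (dgU (D.μ i) s)))).2 ?_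
  rintro _ (⟨γ, hγ, j, rfl⟩ | ⟨j, rfl⟩)
  · exact (congrArg (· ∈ lie D K J) (ad_dg i s (Dg.ct (mem_Φ.1 hγ).rh.dg))).mpr
      (Submodule.smul_mem _ _ (lie_e (mem_Φ.1 hγ) j))
  · exact (congrArg (· ∈ lie D K J) (ad_dg i s (Dg.ct (dg_h j)))).mpr
      (Submodule.smul_mem _ _ (lie_h j))

/-- the stabiliser of a space of matrices -/
def stb (W : Submodule K (D.Mat K)) : Subgroup (D.grp K) where
  carrier := {g | (∀ M ∈ W, Ad g.1 M ∈ W) ∧ ∀ M ∈ W, Ad g⁻¹.1 M ∈ W}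
  mul_mem' {a b} h h' := ⟨fun M m => (Ad_mul a.1 b.1 M).symm ▸ h.1 _ (h'.1 M m), fun M m => by
    rw [_root_.mul_inv_rev]
    exact (Ad_mul b⁻¹.1 a⁻¹.1 M).symm ▸ h'.2 _ (h.2 M m)⟩
  one_mem' := ⟨fun M m => by simpa [Ad_apply] using m, fun M m => by simpa [Ad_apply] using m⟩
  inv_mem' h := ⟨h.2, by simpa only [inv_inv] using h.1⟩

theorem lie_ok : LIE := fun D K _ J o g hg => by
  have x : ∀ δ, D.IsRt δ → (∀ t, ∀ M ∈ lie D K J, Ad ((GG D K).x δ t).1 M ∈ lie D K J) →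
      ∀ t, (GG D K).x δ t ∈ stb (lie D K J) := fun δ r h t => ⟨h t, by
    have : ((GG D K).x δ t)⁻¹ = (GG D K).x δ (-t) :=
      Subtype.ext (by rw [Subgroup.coe_inv, GG_x r, GG_x r, DP.inv])
    exact this ▸ h (-t)⟩
  refine ((sup_le ((LJ_eq (R_ok D) o J).trans_le ((Subgroup.closure_le _).2 ?_))
    ((Subgroup.closure_le _).2 ?_) : _ ≤ stb (lie D K J)) hg).1
  · rintro _ ⟨j, hj, t, rfl | rfl⟩
    · have i : D.R.In J (D.α j) := fun i hi => Pi.single_eq_of_ne (fun e : i = j => hi (e ▸ hj)) _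
      refine x _ (rt_simple j).1.rt (ad_x (rt_simple j).1.rt i (fun _ => IsRt.red) ?_) t
      rw [EE_e, EE_f, ef]
      exact lie_h j
    · have i : D.R.In J (-D.α j) := fun i hi =>
        neg_eq_zero.2 (Pi.single_eq_of_ne (fun e : i = j => hi (e ▸ hj)) _)
      refine x _ (rt_simple j).2.1.rt (ad_x (rt_simple j).2.1.rt i (fun m h => ?_) ?_) t
      · have := IsRt.red (m := -m) (by rwa [neg_smul, ← smul_neg])
        omega
      · rw [neg_neg, EE_e, EE_f, ← lie_skew, ef, map_neg]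
        exact neg_mem (lie_h j)
  · rintro _ ⟨i, t, rfl⟩
    exact ⟨ad_h i t, by rw [← map_inv]; exact ad_h i _⟩

end Vale.Agent.P011UC
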