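import Vale.Agent.P011U.Base
import Vale.Agent.P011LD.H90
import Mathlib.Algebra.MvPolynomial.PDeriv

/-!
The descent kit: standard semilinear actions on groups with root subgroups. Definitions and the
statements of the block.
-/

set_option autoImplicit false
set_option linter.all false

namespace Vale.Agent.P011UC

open Subgroup Vale.Agent.P183CH Vale.Agent.P011LD Vale.Agent.P011U

section

variable {R : RS} {k K : Type} [Field k] [Field K] [Algebra k K] {G : Type} [Group G]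

/-- the character of the root lattice with the values `χ i` on the simple roots -/
def ch {r : ℕ} (χ : Fin r → Kˣ) (γ : Fin r → ℤ) : Kˣ := ∏ i, χ i ^ γ i

/-- the automorphism of the root lattice which permutes the simple roots -/
def pa (R : RS) (π : Equiv.Perm (Fin R.r)) : R.Aut := LinearEquiv.funCongrLeft ℤ ℤ π.symm

/-- the action of `(s, π)` on the split tori -/
def st {r : ℕ} (s : K →+* K) (π : Equiv.Perm (Fin r)) (χ : Fin r → Kˣ) : Fin r → Kˣ :=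
  fun i => Units.map s.toMonoidHom (χ (π.symm i))

/-- the map from the simply connected torus to the adjoint torus -/
def ad (R : RS) (t : Fin R.r → Kˣ) : Fin R.r → Kˣ := fun i => ∏ j, t j ^ R.A i j

variable (Γ : RG R K G)

/-- the standard parabolic subgroups -/
def PJ (J : Set (Fin R.r)) : Subgroup G := Γ.U ⊔ Γ.GJ J

/-- the opposite parabolic subgroups -/
def QJ (J : Set (Fin R.r)) : Subgroup G := Γ.V ⊔ Γ.GJ J

/-- the unipotent radicals -/
def RJ (J : Set (Fin R.r)) : Subgroup G := Γ.X {γ | 0 ≤ γ ∧ ¬R.In J γ}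

/-- the opposite unipotent radicals -/
def SJ (J : Set (Fin R.r)) : Subgroup G := Γ.X {γ | γ ≤ 0 ∧ ¬R.In J γ}

/-- automorphisms of the type diagonal times graph times field -/
structure Dia (s : K →+* K) (π : Equiv.Perm (Fin R.r)) (c : Fin R.r → Kˣ) (δ : MulAut G) :
    Prop where
  sym : ∀ i j, R.A (π i) (π j) = R.A i j
  pos : ∀ i t, δ (Γ.x (R.α i) t) = Γ.x (R.α (π i)) (c i * s t)
  neg : ∀ i t, δ (Γ.x (-R.α i) t) = Γ.x (-R.α (π i)) (((c i)⁻¹ : Kˣ) * s t)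

/-- the simply connected group with its diagonal automorphisms -/
structure Pk (dg : (Fin R.r → Kˣ) →* MulAut G) : Prop where
  hR : R.Ok
  hΓ : Γ.Ok
  inj : Function.Injective hΓ.hT
  dg : ∀ χ, ∀ γ ∈ R.Φ, ∀ t, dg χ (Γ.x γ t) = Γ.x γ (ch χ γ * t)

variable (P : Subgroup (K ≃ₐ[k] K)) (a : (K ≃ₐ[k] K) → MulAut G)
  (π : (K ≃ₐ[k] K) → Equiv.Perm (Fin R.r))

/-- every `a σ` is an automorphism `Dia` followed by the conjugation by an element of `S` -/
def Via (S : Subgroup G) : Prop :=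
  ∀ σ ∈ P, ∃ g ∈ S, ∃ c δ, Dia Γ (σ : K →+* K) (π σ) c δ ∧ a σ = MulAut.conj g * δ

/-- standard continuous semilinear actions of the group `P`; `π` is the star action -/
structure Act : Prop where
  mul : ∀ σ ∈ P, ∀ τ ∈ P, a (σ * τ) = a σ * a τ
  cont : Op P fun σ => ∀ γ ∈ R.Φ, ∀ t, a σ (Γ.x γ t) = Γ.x γ (σ t)
  std : Via Γ P a π ⊤

/-- the action preserves the pinning -/
def Pin : Prop := ∀ σ ∈ P, Dia Γ (σ : K →+* K) (π σ) 1 (a σ)

variable {Γ}

/-- the star action preserves `J` -/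
def St (J : Set (Fin R.r)) : Prop := ∀ σ ∈ P, ∀ i, π σ i ∈ J ↔ i ∈ J

/-- the action transported by `β` -/
def tw (β : MulAut G) : (K ≃ₐ[k] K) → MulAut G := fun σ => β⁻¹ * a σ * β

/-- the fixed points -/
def Fix : Subgroup G := ⨅ σ ∈ P, MonoidHom.eqLocus (a σ).toMonoidHom (MonoidHom.id G)

/-- continuous cocycles -/
structure Coc (z : (K ≃ₐ[k] K) → G) : Prop where
  mul : ∀ σ ∈ P, ∀ τ ∈ P, z (σ * τ) = z σ * a σ (z τ)
  cont : Op P fun σ => z σ = 1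

/-- The data of the Tits cocycle: `a σ` is the pinned action `p σ` followed by the element
`(g σ, χ σ)` of the extended group, and `c` is the obstruction in the central torus. -/
structure Tits (hΓ : Γ.Ok) (dg : (Fin R.r → Kˣ) →* MulAut G) (p : (K ≃ₐ[k] K) → MulAut G)
    (g : (K ≃ₐ[k] K) → G) (χ : (K ≃ₐ[k] K) → Fin R.r → Kˣ)
    (c : (K ≃ₐ[k] K) → (K ≃ₐ[k] K) → Fin R.r → Kˣ) : Prop where
  act : Act Γ P p π
  pin : Pin Γ P p π
  eq : ∀ σ ∈ P, a σ = MulAut.conj (g σ) * dg (χ σ) * p σ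
  cont : Op P fun σ => ∀ τ ∈ P, g (τ * σ) = g τ ∧ χ (τ * σ) = χ τ
  one : g 1 = 1 ∧ χ 1 = 1
  g_mul : ∀ σ ∈ P, ∀ τ ∈ P, g σ * dg (χ σ) (p σ (g τ)) * hΓ.hT (c σ τ) = g (σ * τ)
  χ_mul : ∀ σ ∈ P, ∀ τ ∈ P, χ σ * st (σ : K →+* K) (π σ) (χ τ) = χ (σ * τ) * ad R (c σ τ)
  coc : ∀ σ ∈ P, ∀ τ ∈ P, ∀ ρ ∈ P,
    st (σ : K →+* K) (π σ) (c τ ρ) * c σ (τ * ρ) = c σ τ * c (σ * τ) ρ

end

/-- the value of a polynomial in the matrix entries -/
noncomputable abbrev ev {K : Type} [Field K] {n : ℕ} {H : Subgroup (GL (Fin n) K)} (g : H)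
    (f : MvPolynomial (Fin n × Fin n) K) : K := MvPolynomial.eval (fun e => g.1.1 e.1 e.2) f

/-- the action is given by polynomials -/
def PolA {k K : Type} [Field k] [Field K] [Algebra k K] {n : ℕ} {H : Subgroup (GL (Fin n) K)}
    (P : Subgroup (K ≃ₐ[k] K)) (a : (K ≃ₐ[k] K) → MulAut H) : Prop :=
  ∀ σ ∈ P, ∀ i j, ∃ p : MvPolynomial (Fin n × Fin n) K, ∀ g : H,
    (a σ g).1.1 i j = MvPolynomial.eval (fun e => σ (g.1.1 e.1 e.2)) p

/-- the frame of the abstract statements -/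
def Fr (Q : ∀ {R : RS} {k K : Type} [Field k] [Field K] [Algebra k K] {G : Type} [Group G],
    RG R K G → Subgroup (K ≃ₐ[k] K) → ((K ≃ₐ[k] K) → MulAut G) →
      ((K ≃ₐ[k] K) → Equiv.Perm (Fin R.r)) → Prop) : Prop :=
  ∀ (R : RS) (k K : Type) [Field k] [Infinite k] [Field K] [Algebra k K] [Algebra.IsAlgebraic k K]
    (G : Type) [Group G] (Γ : RG R K G) (P : Subgroup (K ≃ₐ[k] K)) a π, R.Ok → Γ.Ok →
      Act Γ P a π → Q Γ P a π

/-- STAB: a stable standard parabolic subgroup. -/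
def STAB : Prop := Fr fun Γ P a π => ∀ J, (∀ σ ∈ P, ∀ g ∈ Γ.Bo, a σ g ∈ PJ Γ J) →
  Via Γ P a π (PJ Γ J)

/-- UD: unipotent descent. -/
def UD : Prop := Fr fun Γ P a π => ∀ J, St P π J → Via Γ P a π (PJ Γ J) → ∀ z, Coc P a z →
  (∀ σ ∈ P, z σ ∈ RJ Γ J) → ∃ u ∈ RJ Γ J, ∀ σ ∈ P, z σ = u⁻¹ * a σ u

/-- LEVI: a stable parabolic subgroup has a stable Levi subgroup. -/
def LEVI : Prop := Fr fun Γ P a π => ∀ J, St P π J → Via Γ P a π (PJ Γ J) →
  ∃ u ∈ RJ Γ J, Via Γ P (tw a (MulAut.conj u)) π (Γ.GJ J)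

/-- QS: a stable Borel subgroup gives a stable pinning. -/
def QS : Prop := Fr fun Γ P a π => ∀ dg, Pk Γ dg → Via Γ P a π Γ.Bo →
  ∃ u ∈ Γ.U, ∃ χ, Pin Γ P (tw a (MulAut.conj u * dg χ)) π

/-- TD: torus descent and Borel descent. -/
def TD : Prop := Fr fun Γ P a π => ∀ dg, Pk Γ dg → Via Γ P a π Γ.Bo → ∀ z, Coc P a z →
  (∀ σ ∈ P, z σ ∈ Γ.Bo) → ∃ b ∈ Γ.Bo, ∀ σ ∈ P, z σ = b⁻¹ * a σ b

/-- TITS: the Tits cocycle exists. -/
def TITS : Prop := Fr fun Γ P a π => ∀ dg (h : Pk Γ dg), ∃ p g χ c, Tits P a π h.hΓ dg p g χ c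

/-- LIFT: if the Tits cocycle splits on `P'`, the action is an inner twist of the pinned action by
a cocycle with values in the simply connected group. -/
def LIFT : Prop := Fr fun Γ P a π => ∀ dg (h : Pk Γ dg) p g χ c, Tits P a π h.hΓ dg p g χ c →
  ∀ P' ≤ P, ∀ b : _ → _ → _, Op P' (fun σ => b σ = 1) →
    (∀ σ ∈ P', ∀ τ ∈ P', c σ τ * b (σ * τ) = b σ * st σ.toRingEquiv.toRingHom (π σ) (b τ)) →
    ∃ χ₀ z, Coc P' p z ∧ ∀ σ ∈ P', tw a (dg χ₀) σ = MulAut.conj (z σ) * p σ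

/-- the frame of the statements on Chevalley groups -/
def Fc (Q : ∀ (D : Chev) {k K : Type} [Field k] [Field K] [Algebra k K],
    Subgroup (K ≃ₐ[k] K) → ((K ≃ₐ[k] K) → MulAut (D.grp K)) →
      ((K ≃ₐ[k] K) → Equiv.Perm (Fin D.R.r)) → Set (Fin D.R.r) → Prop) : Prop :=
  ∀ (D : Chev) (k K : Type) [Field k] [Infinite k] [Field K] [Algebra k K]
    [Algebra.IsAlgebraic k K] [IsSepClosed K] (P : Subgroup (K ≃ₐ[k] K)) a π J, (GG D K).Ok →
      Act (GG D K) P a π → PolA P a → St P π J → Via (GG D K) P a π ((GG D K).GJ J) → Q D P a π J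

/-- DG: the diagonal automorphisms. -/
def DG : Prop := ∀ (D : Chev) (K : Type) [Field K], ∃ dg : (Fin D.R.r → Kˣ) →* MulAut (D.grp K),
  (∀ χ, ∀ γ ∈ D.R.Φ, ∀ t, dg χ ((GG D K).x γ t) = (GG D K).x γ (ch χ γ * t)) ∧
  ∀ χ, ∃ (d : GL (Fin D.n) K) (v : Fin D.n → K), d.1 = Matrix.diagonal v ∧
    ∀ g, (dg χ g).1 = d * g.1 * d⁻¹

/-- DEN: the fixed points are Zariski dense (in every stable Levi subgroup). -/
def DEN : Prop := Fc fun D {_ K} _ _ _ P a _ J => ∀ f, (∃ g ∈ (GG D K).GJ J, ev g f ≠ 0) →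
  ∃ g ∈ (GG D K).GJ J, g ∈ Fix P a ∧ ev g f ≠ 0

/-- APT: generic stable apartments (in every stable Levi subgroup). -/
def APT : Prop := Fc fun D {_ K} _ _ _ P a π J => ∀ f, (∃ g ∈ (GG D K).GJ J, ev g f ≠ 0) →
  ∃ g ∈ (GG D K).GJ J, ev g f ≠ 0 ∧ Via (GG D K) P (tw a (MulAut.conj g)) π ((GG D K).NJ J)

/-- ETA: polynomial maps with an invertible Jacobian matrix are dominant and separable. -/
def ETA : Prop := ∀ (K : Type) [Field K] [IsSepClosed K] (ι : Type) [Fintype ι] [DecidableEq ι]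
  (Φ : ι → MvPolynomial ι K) (f : MvPolynomial ι K), f ≠ 0 →
    (Matrix.of fun i j => MvPolynomial.pderiv j (Φ i)).det ≠ 0 →
    ∃ q : MvPolynomial ι K, q ≠ 0 ∧ ∀ y, MvPolynomial.eval y q ≠ 0 →
      ∃ x, (∀ i, MvPolynomial.eval x (Φ i) = y i) ∧ MvPolynomial.eval x f ≠ 0

/-- the Lie algebra of the Levi subgroup -/
noncomputable def lie (D : Chev) (K : Type) [Field K] (J : Set (Fin D.R.r)) :
    Submodule K (D.Mat K) :=
  Submodule.span K ({M | ∃ γ ∈ D.R.Φ, D.R.In J γ ∧ M = ct K (D.EE γ 1)} ∪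
    {M | ∃ i, M = ct K (D.hm i)})

/-- LIE: the Lie algebra is stable under the adjoint action. -/
def LIE : Prop := ∀ (D : Chev) (K : Type) [Field K] (J : Set (Fin D.R.r)), (GG D K).Ok →
  ∀ g ∈ (GG D K).GJ J, ∀ M ∈ lie D K J, Ad g.1 M ∈ lie D K J

/-- TDEN: the rational points of a stable torus are dense. -/
def TDEN : Prop := ∀ (D : Chev) (k K : Type) [Field k] [Infinite k] [Field K] [Algebra k K]
  [Algebra.IsAlgebraic k K] (P : Subgroup (K ≃ₐ[k] K)) a π, (GG D K).Ok → Act (GG D K) P a π →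
    Via (GG D K) P a π (GG D K).N → ∀ f, (∃ t ∈ (GG D K).T, ev t f ≠ 0) →
      ∃ t ∈ (GG D K).T, t ∈ Fix P a ∧ ev t f ≠ 0

end Vale.Agent.P011UC
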